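import Vale.Agent.P196.Bounded

/-!
A growth gap for Schreier graphs: with `q = |ball n| / n + 2`, one has `n ≤ q ^ (c * q)`, so the
balls grow at least like `n log n / log log n`.
-/

namespace Vale.Agent.P196

variable {G : Type*} [Group G] {X : Type*} [MulAction G X] {d : ℕ}

/-- A glued set gives a finite quotient, so its inner points are fixed by the generators. -/
theorem glue_fixed (hG : ∀ (H : Type) [Group H] [Finite H] (f : G →* H), f = 1)
    {φ : FreeGroup (Fin d) →* G} (hφ : Function.Surjective φ) {R : Set (FreeGroup (Fin d))}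
    (hker : Subgroup.normalClosure R = φ.ker) {L : ℕ}
    (hL : ∀ r ∈ R, (FreeGroup.toWord r).length ≤ L) {F F' : Finset X} (Γ : Glue φ L F F')
    {y : X} (h1 : y ∉ F) (h2 : y ∈ F')
    (hmid : ∀ i, φ (FreeGroup.of i) • y ∉ F ∧ φ (FreeGroup.of i) • y ∈ F') :
    ∀ g : G, g • y = y := by
  have hkill : φ.ker ≤ Γ.psi.ker := by
    rw [← hker]
    refine Subgroup.normalClosure_le_normal fun r hr => ?_
    rw [SetLike.mem_coe, MonoidHom.mem_ker, ← FreeGroup.mk_toWord (x := r)]
    refine Γ.psi_rel (hL r hr) ?_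
    rw [ev, FreeGroup.mk_toWord, ← MonoidHom.mem_ker, ← hker]
    exact Subgroup.subset_normalClosure hr
  obtain ⟨n, ⟨en⟩⟩ := Finite.exists_equiv_fin Γ.Mid
  have h := hG (Equiv.Perm (Fin n))
    ((en.permCongrHom.toMonoidHom).comp (φ.liftOfSurjective hφ ⟨Γ.psi, hkill⟩))
  have hgen : ∀ i, φ (FreeGroup.of i) • y = y := by
    intro i
    have h2' : Γ.psi (FreeGroup.of i) = 1 := by
      have h3 := DFunLike.congr_fun h (φ (FreeGroup.of i))
      simp only [MonoidHom.comp_apply, MonoidHom.liftOfRightInverse_comp_apply,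
        MonoidHom.one_apply] at h3
      exact en.permCongrHom.injective (h3.trans (map_one _).symm)
    have h4 := Γ.psi_mk [(i, true)] ⟨y, h1, h2⟩
    rw [show FreeGroup.mk [(i, true)] = FreeGroup.of i from rfl, h2'] at h4
    simp only [Equiv.Perm.one_apply, Glue.run] at h4
    rw [show ev φ [(i, true)] = φ (FreeGroup.of i) from rfl, Γ.adj_mid (hmid i).1 (hmid i).2] at h4
    exact h4.symm
  intro g
  obtain ⟨u, rfl⟩ := hφ g
  induction u using FreeGroup.induction_on with
  | C1 => simp
  | of i => exact hgen i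
  | inv_of i hi => rw [map_inv]; exact inv_smul_eq_iff.2 hi.symm
  | mul u v hu hv => rw [map_mul, mul_smul, hv, hu]

/-- Local pictures as functions. -/
abbrev Pat' (d B : ℕ) :=
  (Fin (B + 1) → Bool) × (Fin (B + 1) → Bool) ×
    ((Fin d × Bool) × Fin (B + 1) → Option (Fin (B + 1)))

variable (φ : FreeGroup (Fin d) →* G)

open Classical in
/-- The local picture as functions. -/
noncomputable def pat' (L B : ℕ) (F : Finset X) (e : X → Fin (B + 1)) : Pat' d B :=
  (fun v => decide (∃ p ∈ nbd φ L F, e p = v),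
    fun v => decide (∃ p ∈ nbd φ L F, p ∈ F ∧ e p = v),
    fun t => if h : ∃ p ∈ nbd φ L F, ev φ [t.1] • p ∈ nbd φ L F ∧ e p = t.2
      then some (e (ev φ [t.1] • h.choose)) else none)

theorem pat_of_pat' {L B : ℕ} {F F' : Finset X} {e e' : X → Fin (B + 1)}
    (he : Set.InjOn e (nbd φ L F)) (he' : Set.InjOn e' (nbd φ L F'))
    (h : pat' φ L B F e = pat' φ L B F' e') : pat φ L B F e = pat φ L B F' e' := by
  classical
  simp only [pat', Prod.mk.injEq] at h
  obtain ⟨h1, h2, h3⟩ := h
  have key : ∀ (F : Finset X) (e : X → Fin (B + 1)), Set.InjOn e (nbd φ L F) → ∀ l v v',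
      ((∃ p ∈ nbd φ L F, ev φ [l] • p ∈ nbd φ L F ∧ e p = v ∧ e (ev φ [l] • p) = v') ↔
        (if h : ∃ p ∈ nbd φ L F, ev φ [l] • p ∈ nbd φ L F ∧ e p = v
          then some (e (ev φ [l] • h.choose)) else none) = some v') := by
    intro F e he l v v'
    constructor
    · rintro ⟨p, hp, hlp, hep, hv'⟩
      have h : ∃ p ∈ nbd φ L F, ev φ [l] • p ∈ nbd φ L F ∧ e p = v := ⟨p, hp, hlp, hep⟩
      rw [dif_pos h, he h.choose_spec.1 hp (h.choose_spec.2.2.trans hep.symm), hv']
    · intro h
      split_ifs at h with h'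
      exact ⟨h'.choose, h'.choose_spec.1, h'.choose_spec.2.1, h'.choose_spec.2.2,
        Option.some.inj h⟩
  simp only [pat, Prod.mk.injEq]
  refine ⟨Set.ext fun v => ?_, Set.ext fun v => ?_, Set.ext fun t => ?_⟩
  · simpa using congrFun h1 v
  · simpa [and_assoc] using congrFun h2 v
  · obtain ⟨l, v, v'⟩ := t
    refine (key F e he l v v').trans (Iff.trans ?_ (key F' e' he' l v v').symm)
    exact Iff.of_eq (congrArg (· = some v') (congrFun h3 (l, v)))

theorem card_pat' (d B : ℕ) :
    Fintype.card (Pat' d B) = 2 ^ (B + 1) * (2 ^ (B + 1) * (B + 2) ^ (d * 2 * (B + 1))) := by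
  simp

theorem card_pat'_le (d W q : ℕ) (hq : 2 ≤ q) (hW : 1 ≤ W) :
    4 * W * (Fintype.card (Pat' d (4 * W * q)) + 1) ≤
      q ^ ((9 * W + 10 * W + (5 * W + 1) * (10 * W * d)) * q) := by
  rw [card_pat']
  set B := 4 * W * q with hB
  have hWq : W ≤ W * q := Nat.le_mul_of_pos_right W (by omega)
  have hq5 : q ≤ 5 * W * q := Nat.le_mul_of_pos_left q (by omega)
  have hB1 : B + 1 ≤ 5 * W * q := by rw [hB]; nlinarith
  have h2 : ∀ m, 2 ^ m ≤ q ^ m := fun m => Nat.pow_le_pow_left hq m
  have hbase : B + 2 ≤ q ^ (5 * W + 1) := by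
    have : 5 * W ≤ q ^ (5 * W) := le_trans (Nat.lt_two_pow_self).le (h2 _)
    calc B + 2 ≤ 5 * W * q := by rw [hB]; nlinarith
      _ ≤ q ^ (5 * W) * q := Nat.mul_le_mul_right q this
      _ = q ^ (5 * W + 1) := (pow_succ _ _).symm
  have e1 : 2 ^ (B + 1) ≤ q ^ (5 * W * q) :=
    (h2 _).trans (Nat.pow_le_pow_right (by omega) hB1)
  have e2 : (B + 2) ^ (d * 2 * (B + 1)) ≤ q ^ ((5 * W + 1) * (10 * W * d) * q) := by
    refine (Nat.pow_le_pow_left hbase _).trans ?_
    rw [← pow_mul]
    refine Nat.pow_le_pow_right (by omega) ?_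
    calc (5 * W + 1) * (d * 2 * (B + 1)) ≤ (5 * W + 1) * (d * 2 * (5 * W * q)) :=
          Nat.mul_le_mul_left _ (Nat.mul_le_mul_left _ hB1)
      _ = (5 * W + 1) * (10 * W * d) * q := by ring
  have e3 : 8 * W ≤ q ^ (9 * W * q) := by
    refine le_trans ?_ (Nat.pow_le_pow_right (by omega) (Nat.le_mul_of_pos_right (9 * W) (by omega)))
    exact le_trans (by omega) (le_trans (Nat.lt_two_pow_self (n := 9 * W)).le (h2 _))
  have hpos : 1 ≤ 2 ^ (B + 1) * (2 ^ (B + 1) * (B + 2) ^ (d * 2 * (B + 1))) :=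
    Nat.one_le_iff_ne_zero.2 (by positivity)
  calc 4 * W * (2 ^ (B + 1) * (2 ^ (B + 1) * (B + 2) ^ (d * 2 * (B + 1))) + 1)
      ≤ 8 * W * (2 ^ (B + 1) * (2 ^ (B + 1) * (B + 2) ^ (d * 2 * (B + 1)))) := by nlinarith
    _ ≤ q ^ (9 * W * q) * (q ^ (5 * W * q) * (q ^ (5 * W * q) *
          q ^ ((5 * W + 1) * (10 * W * d) * q))) :=
        Nat.mul_le_mul e3 (Nat.mul_le_mul e1 (Nat.mul_le_mul e1 e2))
    _ = _ := by rw [← pow_add, ← pow_add, ← pow_add]; congr 1; ring

theorem ballOrbit_succ (S : Finset G) {r : ℕ} (x : X)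
    (h : ballOrbit (S : Set G) (r + 1) x ⊆ ballOrbit (S : Set G) r x) :
    ∀ n, ballOrbit (S : Set G) n x ⊆ ballOrbit (S : Set G) r x := by
  suffices ∀ (l : List G), (∀ s ∈ l, s ∈ (S : Set G) ∨ s⁻¹ ∈ (S : Set G)) →
      l.prod • x ∈ ballOrbit (S : Set G) r x by
    rintro n y ⟨l, -, h2, rfl⟩
    exact this l h2
  intro l
  induction l with
  | nil => intro _; exact ⟨[], by simp, by simp, rfl⟩
  | cons s l ih =>
    intro hl
    obtain ⟨u, h1, h2, h3⟩ := ih fun t ht => hl t (List.mem_cons_of_mem _ ht)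
    refine h ⟨s :: u, by simp; omega, fun t ht => ?_, by
      rw [List.prod_cons, List.prod_cons, mul_smul, h3, mul_smul]⟩
    rcases List.mem_cons.1 ht with rfl | ht
    · exact hl t (List.mem_cons_self ..)
    · exact h2 t ht

/-- The growth gap. -/
theorem growth_gap [Group.IsFinitelyPresented G]
    (hG : ∀ (H : Type) [Group H] [Finite H] (f : G →* H), f = 1)
    (S : Finset G) (hS : Subgroup.closure (S : Set G) = ⊤) (x : X) (hx : ∃ g : G, g • x ≠ x) :
    ∃ c : ℕ, ∀ n : ℕ, n ≤ ((ballOrbit (S : Set G) n x).ncard / n + 2) ^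
      (c * ((ballOrbit (S : Set G) n x).ncard / n + 2)) := by
  classical
  obtain ⟨d, φ, hφ, R, hR, hker⟩ := Group.IsFinitelyPresented.out (G := G)
  obtain ⟨L, hL⟩ : ∃ L, ∀ r ∈ R, (FreeGroup.toWord r).length ≤ L :=
    ⟨hR.toFinset.sup fun r => (FreeGroup.toWord r).length, fun r hr =>
      Finset.le_sup (f := fun r => (FreeGroup.toWord r).length) (hR.mem_toFinset.2 hr)⟩
  obtain ⟨D, hD⟩ := exists_radius hS
    ((List.finite_length_le (Fin d × Bool) (L + 2)).toFinset.image (ev φ))
  have hmove : ∀ (w : List (Fin d × Bool)), w.length ≤ L + 2 → ∀ (m : ℕ) (y : X),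
      y ∈ ballOrbit (S : Set G) m x → ev φ w • y ∈ ballOrbit (S : Set G) (m + D) x := by
    rintro w hw m y ⟨u, h1, h2, rfl⟩
    obtain ⟨l, hl1, hl2, hl3⟩ := hD (ev φ w)
      (Finset.mem_image.2 ⟨w, (List.finite_length_le _ _).mem_toFinset.2 hw, rfl⟩)
    exact ⟨l ++ u, by simp; omega, fun s hs => (List.mem_append.1 hs).elim (hl2 s) (h2 s),
      by rw [List.prod_append, hl3, mul_smul]⟩
  have hmove' : ∀ (w : List (Fin d × Bool)), w.length ≤ L + 2 → ∀ (m : ℕ) (y : X),
      ev φ w • y ∈ ballOrbit (S : Set G) m x → y ∈ ballOrbit (S : Set G) (m + D) x := by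
    intro w hw m y hy
    have := hmove (FreeGroup.invRev w) (by simpa using hw) m _ hy
    rwa [ev_invRev, inv_smul_smul] at this
  -- the balls strictly increase
  have hstrict : ∀ r, ∃ y ∈ ballOrbit (S : Set G) (r + 1) x, y ∉ ballOrbit (S : Set G) r x := by
    intro r
    by_contra hc
    push Not at hc
    have horb : (MulAction.orbit G x).Finite := by
      refine (ballOrbit_finite S r x).subset ?_
      rintro y ⟨g, rfl⟩
      obtain ⟨n, hn⟩ := exists_radius hS {g}
      obtain ⟨l, h1, h2, h3⟩ := hn g (by simp)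
      exact ballOrbit_succ S x hc n ⟨l, h1, h2, by rw [h3]⟩
    haveI : Fintype (MulAction.orbit G x) := horb.fintype
    obtain ⟨g, hg⟩ := hx
    have hh := congrArg Subtype.val (trivial_of_boundedCuts hG
      (fun _ => ⟨0, fun _ => ⟨Finset.univ, ∅, Finset.subset_univ _, by simp, fun y g' _ h =>
        absurd (iff_of_true (Finset.mem_univ _) (Finset.mem_univ _)) h⟩⟩)
      g (⟨x, MulAction.mem_orbit_self x⟩ : MulAction.orbit G x))
    exact hg (by simpa only [MulAction.orbit.coe_smul] using hh)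
  set W := 4 * D + 4 with hWdef
  refine ⟨9 * W + 10 * W + (5 * W + 1) * (10 * W * d), fun n => ?_⟩
  set b := fun m => (ballOrbit (S : Set G) m x).ncard with hb
  set q := b n / n + 2 with hq
  show n ≤ q ^ _
  refine le_trans ?_ (card_pat'_le d W q (Nat.le_add_left 2 _) (by omega))
  set K := n / W with hK
  set P := Fintype.card (Pat' d (4 * W * q))
  suffices hKP : K ≤ 2 * P by
    have h := Nat.div_add_mod n W
    rw [← hK] at h
    have hr := Nat.mod_lt n (show 0 < W by omega)
    have h2 : W * K ≤ W * (2 * P) := Nat.mul_le_mul_left W hKP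
    nlinarith
  by_contra hKP
  let win : ℕ → ℕ := fun k => b (k * W + W) - b (k * W)
  have hbmono : ∀ {m m' : ℕ}, m ≤ m' → b m ≤ b m' := fun h =>
    Set.ncard_le_ncard (ballOrbit_mono _ h x) (ballOrbit_finite S _ x)
  have hsum : ∀ k, (Finset.range k).sum win ≤ b (k * W) := by
    intro k
    induction k with
    | zero => simp
    | succ k ih =>
      rw [Finset.sum_range_succ]
      simp only [win] at ih ⊢
      have h1 : k * W + W = (k + 1) * W := by ring
      have h2 := hbmono (show k * W ≤ (k + 1) * W by nlinarith)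
      rw [h1]
      omega
  let good := (Finset.range K).filter fun k => win k ≤ 4 * W * q
  let bad := (Finset.range K).filter fun k => ¬ win k ≤ 4 * W * q
  have hgb : good.card + bad.card = K := by
    rw [Finset.card_filter_add_card_filter_not, Finset.card_range]
  have hKW : K * W ≤ n := Nat.div_mul_le_self n W
  have hbad : bad.card * (4 * W * q) ≤ q * (2 * K * W) := by
    calc bad.card * (4 * W * q) ≤ bad.sum win := by
          rw [← smul_eq_mul]
          exact Finset.card_nsmul_le_sum _ _ _ fun k hk => by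
            have := (Finset.mem_filter.1 hk).2; omega
      _ ≤ (Finset.range K).sum win :=
          Finset.sum_le_sum_of_subset (Finset.filter_subset _ _)
      _ ≤ b (K * W) := hsum K
      _ ≤ b n := hbmono hKW
      _ ≤ q * (2 * K * W) := by
          have hn2 : n ≤ 2 * K * W := by
            have h := Nat.div_add_mod n W
            rw [← hK] at h
            have hr := Nat.mod_lt n (show 0 < W by omega)
            have : 1 ≤ K := by omega
            nlinarith
          have hn0 : 0 < n := by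
            rcases Nat.eq_zero_or_pos n with rfl | h
            · simp [hK] at hKP
            · exact h
          have h := Nat.div_add_mod (b n) n
          have hr := Nat.mod_lt (b n) hn0
          have hqn : b n ≤ q * n := by rw [hq]; nlinarith
          exact hqn.trans (Nat.mul_le_mul_left q hn2)
  have hbad2 : 2 * bad.card ≤ K := by
    have h1 : 2 * bad.card * (2 * W * q) ≤ K * (2 * W * q) := by nlinarith
    exact Nat.le_of_mul_le_mul_right h1 (by positivity)
  have hgood : P < good.card := by omega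
  let T : ℕ → ℕ := fun k => k * W + 2 * D + 1
  let F : ℕ → Finset X := fun k => (ballOrbit_finite S (T k) x).toFinset
  have hnb : ∀ k, nbd φ L (F k) ⊆
      ballOrbit (S : Set G) (T k + D) x \ ballOrbit (S : Set G) (k * W) x := by
    rintro k y ⟨w, hw, hne⟩
    simp only [F, Set.Finite.mem_toFinset] at hne
    refine ⟨?_, fun h => hne (iff_of_true (ballOrbit_mono _ (show k * W ≤ T k by simp only [T]; omega) x h)
      (ballOrbit_mono _ (show k * W + D ≤ T k by simp only [T]; omega) x (hmove w hw _ _ h)))⟩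
    by_cases hin : y ∈ ballOrbit (S : Set G) (T k) x
    · exact ballOrbit_mono _ (by omega) x hin
    · refine hmove' w hw _ _ ?_
      by_contra h; exact hne (iff_of_false hin h)
  have hemb : ∀ k ∈ good, ∃ e : X → Fin (4 * W * q + 1), Set.InjOn e (nbd φ L (F k)) := by
    intro k hk
    have hwk := (Finset.mem_filter.1 hk).2
    let U := ballOrbit (S : Set G) (k * W + W) x \ ballOrbit (S : Set G) (k * W) x
    have hUf : U.Finite := (ballOrbit_finite S _ x).diff
    have hU : hUf.toFinset.card ≤ 4 * W * q := by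
      rw [← Set.ncard_eq_toFinset_card U hUf, Set.ncard_sdiff (ballOrbit_mono _ (by omega) x)
        (ballOrbit_finite S _ x)]
      exact hwk
    have hsub : nbd φ L (F k) ⊆ U := fun y hy =>
      ⟨ballOrbit_mono _ (by simp only [T]; omega) x (hnb k hy).1, (hnb k hy).2⟩
    refine ⟨fun z => if h : z ∈ hUf.toFinset then
      ⟨(hUf.toFinset.equivFin ⟨z, h⟩).1, by omega⟩ else 0, fun a ha c hc hac => ?_⟩
    have ha' : a ∈ hUf.toFinset := hUf.mem_toFinset.2 (hsub ha)
    have hc' : c ∈ hUf.toFinset := hUf.mem_toFinset.2 (hsub hc)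
    simp only [ha', hc', ↓reduceDIte, Fin.mk.injEq] at hac
    exact congrArg Subtype.val (hUf.toFinset.equivFin.injective (Fin.ext hac))
  choose e he using hemb
  obtain ⟨⟨a, ha⟩, -, ⟨c, hc⟩, -, hne, heq⟩ := Finset.exists_ne_map_eq_of_card_lt_of_maps_to
    (s := good.attach) (t := (Finset.univ : Finset (Pat' d (4 * W * q))))
    (f := fun k => pat' φ L _ (F k.1) (e k.1 k.2))
    (by rwa [Finset.card_attach, Finset.card_univ]) (fun _ _ => Finset.mem_univ _)
  have main : ∀ a c (ha : a ∈ good) (hc : c ∈ good), a < c →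
      pat' φ L _ (F a) (e a ha) = pat' φ L _ (F c) (e c hc) → False := by
    intro a c ha hc hac heq
    obtain ⟨y₀, -⟩ := hstrict 0
    have : Nonempty X := ⟨x⟩
    have hp := pat_of_pat' φ (he a ha) (he c hc) heq
    obtain ⟨f, hf, hfl⟩ := pat_match φ (he a ha) (he c hc) hp
    obtain ⟨f', hf', hfl'⟩ := pat_match φ (he c hc) (he a ha) hp.symm
    have hT : T a + W ≤ T c := by
      have : (a + 1) * W ≤ c * W := Nat.mul_le_mul_right W hac
      simp only [T]; rw [Nat.succ_mul] at this; omega
    let Γ : Glue φ L (F a) (F c) :=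
      { ball := fun w z hw hz => by
          have hz' : z ∈ ballOrbit (S : Set G) (T a + D) x := by
            rcases hz with hz | hz
            · exact ballOrbit_mono _ (by omega) x ((ballOrbit_finite S _ x).mem_toFinset.1 hz)
            · exact (hnb a hz).1
          exact (ballOrbit_finite S _ x).mem_toFinset.2
            (ballOrbit_mono _ (by omega) x (hmove w hw _ _ hz'))
        pi := f
        rho := f'
        pi_mem := fun p hp => ⟨(hf p hp).1,
          he a ha (hf' _ (hf p hp).1).1 hp (by rw [(hf' _ (hf p hp).1).2.1, (hf p hp).2.1]),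
          (hf p hp).2.2⟩
        rho_mem := fun p hp => ⟨(hf' p hp).1,
          he c hc (hf _ (hf' p hp).1).1 hp (by rw [(hf _ (hf' p hp).1).2.1, (hf' p hp).2.1]),
          (hf' p hp).2.2.symm⟩
        pi_step := hfl
        rho_step := hfl' }
    obtain ⟨y, hy1, hy2⟩ := hstrict (T a + D)
    have hin : ∀ {m : ℕ} {z : X}, z ∈ (ballOrbit_finite S m x).toFinset ↔
        z ∈ ballOrbit (S : Set G) m x := fun {m z} => (ballOrbit_finite S m x).mem_toFinset
    have hfix := glue_fixed hG hφ hker hL Γ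
      (fun h => hy2 (ballOrbit_mono _ (by omega) x (hin.1 h)))
      (hin.2 (ballOrbit_mono _ (by omega) x hy1))
      (fun i => ⟨fun h => hy2 (hmove' [(i, true)] (by simp) (T a) y (hin.1 h)),
        hin.2 (ballOrbit_mono _ (by omega) x (hmove [(i, true)] (by simp) _ y hy1))⟩)
    obtain ⟨g, hg⟩ := hx
    obtain ⟨u, -, -, hu⟩ := hy1
    have hxy : x = y := by
      have := hfix u.prod⁻¹
      rw [← hu, inv_smul_smul] at this
      rw [← hu]; exact this
    exact hg (hxy ▸ hfix g)
  rcases lt_or_gt_of_ne (fun h : a = c => hne (Subtype.ext h)) with h | h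
  · exact main a c ha hc h heq
  · exact main c a hc ha h heq.symm

end Vale.Agent.P196
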