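import Vale.Agent.P196.Main

/-!
Homeomorphisms of bounded type of a path space, and the closure under subgroups, extensions and
directed unions.
-/

namespace Vale.Agent.P196

/-- The first `n` coordinates. -/
def pre {a : ℕ → ℕ} (n : ℕ) (x : ∀ k, Fin (a k)) : ∀ i : Fin n, Fin (a i) := fun i => x i

theorem pre_mono {a : ℕ → ℕ} {m n : ℕ} (h : m ≤ n) {x y : ∀ k, Fin (a k)}
    (hxy : pre n x = pre n y) : pre m x = pre m y :=
  funext fun i => congrFun hxy ⟨i, lt_of_lt_of_le i.2 h⟩

/-- Outside boundedly many cylinders of each depth the tail is kept. -/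
def BoundedType {a : ℕ → ℕ} (g : Equiv.Perm (∀ k, Fin (a k))) : Prop :=
  ∃ B : ℕ, ∀ n : ℕ, ∃ Bad : Finset (∀ i : Fin n, Fin (a i)), Bad.card ≤ B ∧
    ∀ x, pre n x ∉ Bad → ∀ m, n ≤ m → g x m = x m

variable {a : ℕ → ℕ}

/-- Equal tails. -/
def Cofinal (x y : ∀ k, Fin (a k)) : Prop := ∃ n, ∀ m, n ≤ m → x m = y m

theorem Cofinal.symm {x y : ∀ k, Fin (a k)} (h : Cofinal x y) : Cofinal y x :=
  h.elim fun n hn => ⟨n, fun m hm => (hn m hm).symm⟩

theorem Cofinal.trans {x y z : ∀ k, Fin (a k)} (h : Cofinal x y) (h' : Cofinal y z) :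
    Cofinal x z := by
  obtain ⟨n, hn⟩ := h
  obtain ⟨n', hn'⟩ := h'
  exact ⟨max n n', fun m hm => (hn m (by omega)).trans (hn' m (by omega))⟩

/-- Only finitely many points change their tail class. -/
theorem BoundedType.finite_singular {g : Equiv.Perm (∀ k, Fin (a k))} (hg : BoundedType g) :
    {x | ¬ Cofinal (g x) x}.Finite := by
  classical
  obtain ⟨B, hB⟩ := hg
  by_contra hinf
  obtain ⟨T, hT, hcard⟩ := Set.Infinite.exists_subset_card_eq hinf (B + 1)
  obtain ⟨n, hn⟩ : ∃ n, Set.InjOn (pre n) (↑T : Set (∀ k, Fin (a k))) := by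
    have : ∀ p : (∀ k, Fin (a k)) × (∀ k, Fin (a k)),
        ∃ n, p.1 ≠ p.2 → pre n p.1 ≠ pre n p.2 := fun p => by
      by_cases h : p.1 = p.2
      · exact ⟨0, fun hc => absurd h hc⟩
      · obtain ⟨k, hk⟩ := Function.ne_iff.1 h
        exact ⟨k + 1, fun _ hc => hk (congrFun hc ⟨k, by omega⟩)⟩
    choose N hN using this
    refine ⟨(T ×ˢ T).sup N, fun x hx y hy hxy => ?_⟩
    by_contra hne
    exact hN (x, y) hne (pre_mono (Finset.le_sup (f := N) (Finset.mk_mem_product hx hy)) hxy)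
  obtain ⟨Bad, hBad, hgood⟩ := hB n
  have : T.card ≤ Bad.card := by
    rw [← Finset.card_image_of_injOn hn]
    refine Finset.card_le_card fun v hv => ?_
    obtain ⟨x, hx, rfl⟩ := Finset.mem_image.1 hv
    by_contra hb
    exact hT hx ⟨n, hgood x hb⟩
  omega

variable {G : Type*} [Group G] [Group.IsFinitelyPresented G]

/-- No nontrivial action by homeomorphisms of bounded type. -/
theorem trivial_of_boundedType (hG : ∀ (H : Type) [Group H] [Finite H] (f : G →* H), f = 1)
    (ρ : G →* Equiv.Perm (∀ k, Fin (a k))) (hρ : ∀ g, BoundedType (ρ g)) : ρ = 1 := by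
  classical
  refine MonoidHom.ext fun g₀ => Equiv.ext fun x₀ => ?_
  obtain ⟨d, φ, hφ, -⟩ := Group.IsFinitelyPresented.out (G := G)
  let sing : G → Set (∀ k, Fin (a k)) := fun g => {x | ¬ Cofinal (ρ g x) x}
  let K : Set (∀ k, Fin (a k)) := insert x₀ (⋃ i : Fin d,
    (ρ (φ (FreeGroup.of i)) '' sing (φ (FreeGroup.of i))) ∪
      (ρ (φ (FreeGroup.of i))⁻¹ '' sing (φ (FreeGroup.of i))⁻¹))
  have hK : K.Finite := (Set.finite_iUnion fun i =>
    ((hρ _).finite_singular.image _).union ((hρ _).finite_singular.image _)).insert _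
  let O : Set (∀ k, Fin (a k)) := {y | ∃ c ∈ K, Cofinal y c}
  have hbase : ∀ (g : G), ρ g '' sing g ⊆ K → ∀ y ∈ O, ρ g y ∈ O := by
    intro g hg y ⟨c, hc, hyc⟩
    by_cases hs : y ∈ sing g
    · exact ⟨ρ g y, hg ⟨y, hs, rfl⟩, 0, fun _ _ => rfl⟩
    · exact ⟨c, hc, (not_not.1 hs : Cofinal (ρ g y) y).trans hyc⟩
  have hO : ∀ (g : G), ∀ y ∈ O, ρ g y ∈ O := by
    intro g
    obtain ⟨u, rfl⟩ := hφ g
    induction u using FreeGroup.induction_on with
    | C1 => intro y hy; simpa using hy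
    | of i =>
      exact hbase _ fun z hz => Or.inr (Set.mem_iUnion.2 ⟨i, Or.inl hz⟩)
    | inv_of i _ =>
      rw [map_inv]
      exact hbase _ fun z hz => Or.inr (Set.mem_iUnion.2 ⟨i, Or.inr hz⟩)
    | mul u v hu hv =>
      intro y hy
      rw [map_mul, map_mul, Equiv.Perm.mul_apply]
      exact hu _ (hv y hy)
  letI : MulAction G O :=
    { smul := fun g y => ⟨ρ g y.1, hO g y.1 y.2⟩
      one_smul := fun y => Subtype.ext (by show ρ 1 y.1 = y.1; simp)
      mul_smul := fun a b y => Subtype.ext (by show ρ (a * b) y.1 = ρ a (ρ b y.1); simp) }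
  have hX : BoundedCuts G O := by
    intro E
    choose B hB using hρ
    choose Bad hBad hgood using hB
    refine ⟨hK.toFinset.card * E.sum fun g => B g + B g⁻¹, fun A => ?_⟩
    obtain ⟨n, hn⟩ : ∃ n, ∀ y ∈ A, ∃ c ∈ K, ∀ m, n ≤ m → y.1 m = c m := by
      have : ∀ y : O, ∃ n, ∃ c ∈ K, ∀ m, n ≤ m → y.1 m = c m := fun y => by
        obtain ⟨c, hc, n, hn⟩ := y.2
        exact ⟨n, c, hc, hn⟩
      choose n c hc hn using this
      exact ⟨A.sup n, fun y hy => ⟨c y, hc y, fun m hm => hn y m ((Finset.le_sup hy).trans hm)⟩⟩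
    -- the point with prefix `v` and the tail of `c`
    let mix : (∀ k, Fin (a k)) → (∀ i : Fin n, Fin (a i)) → ∀ k, Fin (a k) := fun c v k =>
      if h : k < n then v ⟨k, h⟩ else c k
    have hmix : ∀ c ∈ K, ∀ v, mix c v ∈ O := fun c hc v =>
      ⟨c, hc, n, fun m hm => dif_neg (by omega)⟩
    let pt : hK.toFinset → (∀ i : Fin n, Fin (a i)) → O := fun c v =>
      ⟨mix c.1 v, hmix c.1 (hK.mem_toFinset.1 c.2) v⟩
    have hpt : ∀ y : O, (∃ c ∈ K, ∀ m, n ≤ m → y.1 m = c m) →
        ∃ c, pt c (pre n y.1) = y := by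
      rintro y ⟨c, hc, hy⟩
      refine ⟨⟨c, hK.mem_toFinset.2 hc⟩, Subtype.ext (funext fun k => ?_)⟩
      show mix c (pre n y.1) k = y.1 k
      by_cases hk : k < n
      · simp [mix, hk, pre]
      · simp [mix, hk, hy k (by omega)]
    let N : Finset O := E.biUnion fun g =>
      ((Finset.univ ×ˢ Bad g n).image fun p => pt p.1 p.2) ∪
        ((Finset.univ ×ˢ Bad g⁻¹ n).image fun p => g⁻¹ • pt p.1 p.2)
    refine ⟨(Finset.univ ×ˢ Finset.univ).image fun p : hK.toFinset × _ => pt p.1 p.2, N,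
      ?_, ?_, ?_⟩
    · intro y hy
      obtain ⟨c, hc⟩ := hpt y (hn y hy)
      exact Finset.mem_image.2 ⟨(c, pre n y.1), by simp, hc⟩
    · refine Finset.card_biUnion_le.trans ?_
      rw [Finset.mul_sum]
      refine Finset.sum_le_sum fun g _ => (Finset.card_union_le _ _).trans ?_
      rw [Nat.mul_add]
      refine Nat.add_le_add (Finset.card_image_le.trans ?_) (Finset.card_image_le.trans ?_) <;>
        rw [Finset.card_product, Finset.card_univ, Fintype.card_coe] <;>
        exact Nat.mul_le_mul_left _ (hBad _ _)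
    · intro y g hg hne
      have hF : ∀ z : O, z ∈ ((Finset.univ ×ˢ Finset.univ).image
          fun p : hK.toFinset × _ => pt p.1 p.2) ↔ ∃ c ∈ K, ∀ m, n ≤ m → z.1 m = c m := by
        intro z
        constructor
        · intro hz
          obtain ⟨⟨c, v⟩, -, rfl⟩ := Finset.mem_image.1 hz
          exact ⟨c.1, hK.mem_toFinset.1 c.2, fun m hm => dif_neg (by omega)⟩
        · intro hz
          obtain ⟨c, hc⟩ := hpt z hz
          exact Finset.mem_image.2 ⟨(c, pre n z.1), by simp, hc⟩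
      refine Finset.mem_biUnion.2 ⟨g, hg, ?_⟩
      by_cases hy : y ∈ (Finset.univ ×ˢ Finset.univ).image
          fun p : hK.toFinset × _ => pt p.1 p.2
      · refine Finset.mem_union_left _ ?_
        obtain ⟨c, hc⟩ := hpt y ((hF y).1 hy)
        refine Finset.mem_image.2 ⟨(c, pre n y.1), by
          refine Finset.mem_product.2 ⟨Finset.mem_univ _, ?_⟩
          by_contra hb
          obtain ⟨c', hc', hc''⟩ := (hF y).1 hy
          refine hne (iff_of_true hy ((hF _).2 ⟨c', hc', fun m hm => ?_⟩))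
          exact (hgood g n y.1 hb m hm).trans (hc'' m hm), hc⟩
      · have hgy : g • y ∈ (Finset.univ ×ˢ Finset.univ).image
            fun p : hK.toFinset × _ => pt p.1 p.2 := by
          by_contra h; exact hne (iff_of_false hy h)
        refine Finset.mem_union_right _ ?_
        obtain ⟨c, hc⟩ := hpt (g • y) ((hF _).1 hgy)
        refine Finset.mem_image.2 ⟨(c, pre n (g • y).1), by
          refine Finset.mem_product.2 ⟨Finset.mem_univ _, ?_⟩
          by_contra hb
          obtain ⟨c', hc', hc''⟩ := (hF _).1 hgy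
          refine hne (iff_of_true ((hF _).2 ⟨c', hc', fun m hm => ?_⟩) hgy)
          have h1 := hgood g⁻¹ n (g • y).1 hb m hm
          have h2 : ρ g⁻¹ (g • y).1 = y.1 := congrArg Subtype.val (inv_smul_smul g y)
          rw [h2] at h1
          exact h1.trans (hc'' m hm), ?_⟩
        show g⁻¹ • pt c (pre n (g • y).1) = y
        rw [hc, inv_smul_smul]
  have h := congrArg Subtype.val (trivial_of_boundedCuts hG hX g₀
    ⟨x₀, x₀, Or.inl rfl, 0, fun _ _ => rfl⟩)
  exact h

end Vale.Agent.P196
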