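import Vale.Agent.P196.Bounded

/-!
Interval exchanges: rational perturbations of finitely many parameters give finite quotients.
-/

namespace Vale.Agent.P196

/-- The interval `[0, 1)`. -/
abbrev Unit01 := {x : ℝ // 0 ≤ x ∧ x < 1}

/-- The same position with respect to finitely many reals. -/
def SameCell (P : Finset ℝ) (x y : ℝ) : Prop :=
  ∀ p ∈ P, (x < p ↔ y < p) ∧ (p < x ↔ p < y)

/-- A bijection of `[0, 1)` which is a translation on each of finitely many cells cut out by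
finitely many points. -/
def IsIET (g : Equiv.Perm Unit01) : Prop :=
  ∃ P : Finset ℝ, ∀ x y : Unit01, SameCell P x.1 y.1 → (g x).1 - x.1 = (g y).1 - y.1

theorem sameCell_iff {P : Finset ℝ} {x y : ℝ} :
    SameCell P x y ↔ (P.filter fun p => x < p) = (P.filter fun p => y < p) ∧
      (P.filter fun p => p < x) = (P.filter fun p => p < y) := by
  constructor
  · intro h
    exact ⟨Finset.filter_congr fun p hp => (h p hp).1, Finset.filter_congr fun p hp => (h p hp).2⟩
  · rintro ⟨h1, h2⟩ p hp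
    exact ⟨by simpa [hp] using Finset.ext_iff.1 h1 p, by simpa [hp] using Finset.ext_iff.1 h2 p⟩

/-- The translation lengths are finite in number. -/
theorem IsIET.finite_disp {g : Equiv.Perm Unit01} (hg : IsIET g) :
    (Set.range fun x : Unit01 => (g x).1 - x.1).Finite := by
  classical
  obtain ⟨P, hP⟩ := hg
  let key : Unit01 → Finset ℝ × Finset ℝ := fun x =>
    (P.filter fun p => x.1 < p, P.filter fun p => p < x.1)
  have hk : (Set.range key).Finite :=
    Set.Finite.subset ((P.powerset ×ˢ P.powerset).finite_toSet) (by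
      rintro _ ⟨x, rfl⟩
      exact Finset.mem_coe.2 (Finset.mem_product.2
        ⟨Finset.mem_powerset.2 (Finset.filter_subset _ _),
          Finset.mem_powerset.2 (Finset.filter_subset _ _)⟩))
  haveI : Finite (Set.range key) := hk
  haveI : Nonempty Unit01 := ⟨⟨0, le_rfl, one_pos⟩⟩
  refine Set.Finite.subset ((hk.image fun k => (g (Function.invFun key k)).1 -
    (Function.invFun key k).1)) ?_
  rintro _ ⟨x, rfl⟩
  refine ⟨key x, ⟨x, rfl⟩, hP _ _ (sameCell_iff.2 ?_)⟩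
  exact Prod.mk.injEq .. ▸ Function.invFun_eq (f := key) ⟨x, rfl⟩

/-- A rational linear substitute with the same order on finitely many reals, fixing one. -/
theorem exists_rational (C : Finset ℝ) : ∃ ψ : Submodule.span ℚ (insert (1 : ℝ) (C : Set ℝ)) →ₗ[ℚ] ℚ,
    ψ ⟨1, Submodule.subset_span (Set.mem_insert _ _)⟩ = 1 ∧
    ∀ a b : Submodule.span ℚ (insert (1 : ℝ) (C : Set ℝ)), a.1 ∈ C → b.1 ∈ C →
      ((a : ℝ) < b ↔ ψ a < ψ b) := by
  classical
  set V := Submodule.span ℚ (insert (1 : ℝ) (C : Set ℝ))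
  haveI : Module.Finite ℚ V := Module.Finite.span_of_finite ℚ ((Set.Finite.insert 1 C.finite_toSet))
  let bs := Module.finBasis ℚ V
  let one : V := ⟨1, Submodule.subset_span (Set.mem_insert _ _)⟩
  let D : Finset V := ((C.attach.image fun c => (⟨c.1, Submodule.subset_span
    (Set.mem_insert_of_mem _ c.2)⟩ : V)) ×ˢ (C.attach.image fun c => (⟨c.1, Submodule.subset_span
    (Set.mem_insert_of_mem _ c.2)⟩ : V))).image fun p => p.2 - p.1
  let T : Finset V := insert one (D.filter fun v => 0 < (v : ℝ))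
  have hTpos : ∀ v ∈ T, 0 < (v : ℝ) := by
    intro v hv
    rcases Finset.mem_insert.1 hv with rfl | hv
    · exact one_pos
    · exact (Finset.mem_filter.1 hv).2
  have hsum : ∀ v : V, (v : ℝ) = ∑ i, (bs.repr v i : ℝ) * (bs i : ℝ) := by
    intro v
    have := congrArg Subtype.val (bs.sum_repr v)
    rw [← this]
    push_cast
    simp [Rat.smul_def]
  -- positivity on `T` survives small changes of the basis values
  have hcont : ∀ᶠ z : Fin (Module.finrank ℚ V) → ℝ in nhds fun i => (bs i : ℝ),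
      ∀ v ∈ T, 0 < ∑ i, (bs.repr v i : ℝ) * z i := by
    rw [Filter.eventually_all_finset]
    intro v hv
    have : Continuous fun z : Fin (Module.finrank ℚ V) → ℝ => ∑ i, (bs.repr v i : ℝ) * z i := by
      fun_prop
    exact (this.tendsto _).eventually_const_lt (by rw [← hsum]; exact hTpos v hv)
  obtain ⟨ε, hε, hball⟩ := Metric.eventually_nhds_iff.1 hcont
  choose r hr using fun i => exists_rat_btwn (show (bs i : ℝ) < bs i + ε / 2 by linarith)
  let ψ₀ : V →ₗ[ℚ] ℚ := bs.constr ℚ r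
  have hψ : ∀ v ∈ T, 0 < ψ₀ v := by
    intro v hv
    have h1 := hball (y := fun i => (r i : ℝ)) (by
      rw [dist_pi_lt_iff hε]
      intro i
      rw [Real.dist_eq, abs_lt]
      constructor <;> linarith [(hr i).1, (hr i).2]) v hv
    have h2 : (ψ₀ v : ℝ) = ∑ i, (bs.repr v i : ℝ) * (r i : ℝ) := by
      simp [ψ₀, Module.Basis.constr_apply_fintype]
    rw [← h2] at h1
    exact_mod_cast h1
  have h1pos := hψ one (Finset.mem_insert_self _ _)
  refine ⟨(ψ₀ one)⁻¹ • ψ₀, ?_, fun a b ha hb => ?_⟩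
  · show (ψ₀ one)⁻¹ * ψ₀ one = 1
    exact inv_mul_cancel₀ h1pos.ne'
  have lt : ∀ a b : V, a.1 ∈ C → b.1 ∈ C → (a : ℝ) < b → ψ₀ a < ψ₀ b := by
    intro a b ha hb hab
    have hv : b - a ∈ T := by
      refine Finset.mem_insert_of_mem (Finset.mem_filter.2 ⟨Finset.mem_image.2 ⟨(a, b), ?_, rfl⟩, ?_⟩)
      · simp only [Finset.mem_product, Finset.mem_image, Finset.mem_attach, true_and]
        exact ⟨⟨⟨a.1, ha⟩, rfl⟩, ⟨⟨b.1, hb⟩, rfl⟩⟩
      · simpa using hab
    have := hψ _ hv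
    rw [map_sub] at this
    linarith
  have hinv : 0 < (ψ₀ one)⁻¹ := inv_pos.2 h1pos
  show _ ↔ (ψ₀ one)⁻¹ * ψ₀ a < (ψ₀ one)⁻¹ * ψ₀ b
  rw [mul_lt_mul_iff_of_pos_left hinv]
  refine ⟨lt a b ha hb, fun h => ?_⟩
  rcases lt_trichotomy (a : ℝ) b with h' | h' | h'
  · exact h'
  · rw [Subtype.ext h'] at h; exact absurd h (lt_irrefl _)
  · exact absurd (lt b a hb ha h') (not_lt.2 h.le)

variable {G : Type*} [Group G] [Group.IsFinitelyPresented G]

open Classical in
/-- Sums of at most `k` translation lengths. -/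
noncomputable def shifts (Δ : Finset ℝ) : ℕ → Finset ℝ
  | 0 => {0}
  | k + 1 => shifts Δ k ∪ Finset.image₂ (fun t u => t + u) Δ (shifts Δ k)

theorem shifts_mono (Δ : Finset ℝ) {j k : ℕ} (h : j ≤ k) : shifts Δ j ⊆ shifts Δ k := by
  classical
  induction h with
  | refl => exact Finset.Subset.refl _
  | step _ ih => exact ih.trans Finset.subset_union_left

theorem exists_den (A : Finset ℚ) : ∃ N : ℕ, 0 < N ∧ ∀ a ∈ A, ∃ j : ℤ, a * N = j := by
  refine ⟨∏ a ∈ A, a.den, Finset.prod_pos fun a _ => a.den_pos, fun a ha => ?_⟩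
  obtain ⟨k, hk⟩ := Finset.dvd_prod_of_mem (fun a : ℚ => a.den) ha
  refine ⟨a.num * k, ?_⟩
  rw [hk, Nat.cast_mul, ← mul_assoc, Rat.mul_den_eq_num]
  push_cast
  ring

/-- The translation length of a word at a point. -/
def tau {d : ℕ} (φ : FreeGroup (Fin d) →* G) (ρ : G →* Equiv.Perm Unit01)
    (w : List (Fin d × Bool)) (x : Unit01) : ℝ := (ρ (ev φ w) x).1 - x.1

omit [Group.IsFinitelyPresented G] in
theorem tau_cons {d : ℕ} (φ : FreeGroup (Fin d) →* G) (ρ : G →* Equiv.Perm Unit01)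
    (l : Fin d × Bool) (w : List (Fin d × Bool)) (x : Unit01) :
    tau φ ρ (l :: w) x = tau φ ρ [l] (ρ (ev φ w) x) + tau φ ρ w x := by
  simp only [tau, ev_cons φ l w, map_mul, Equiv.Perm.mul_apply]
  ring

open Classical in
/-- No nontrivial action by interval exchanges. -/
theorem trivial_of_iet (hG : ∀ (H : Type) [Group H] [Finite H] (f : G →* H), f = 1)
    (ρ : G →* Equiv.Perm Unit01) (hρ : ∀ g, IsIET (ρ g)) : ρ = 1 := by
  obtain ⟨d, φ, hφ, R, hR, hker⟩ := Group.IsFinitelyPresented.out (G := G)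
  suffices hgen : ∀ (i : Fin d) (x : Unit01), ρ (φ (FreeGroup.of i)) x = x by
    refine MonoidHom.ext fun g => ?_
    obtain ⟨u, rfl⟩ := hφ g
    induction u using FreeGroup.induction_on with
    | C1 => simp
    | of i => exact Equiv.ext (hgen i)
    | inv_of i h => rw [map_inv, map_inv, h]; simp
    | mul u v hu hv => rw [map_mul, map_mul, hu, hv]; simp
  intro i₀ x₀
  by_contra hne
  obtain ⟨L, hL⟩ : ∃ L, ∀ r ∈ R, (FreeGroup.toWord r).length ≤ L :=
    ⟨hR.toFinset.sup fun r => (FreeGroup.toWord r).length, fun r hr =>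
      Finset.le_sup (f := fun r => (FreeGroup.toWord r).length) (hR.mem_toFinset.2 hr)⟩
  have hfin : ∀ l : Fin d × Bool, (Set.range fun x : Unit01 => tau φ ρ [l] x).Finite :=
    fun l => (hρ _).finite_disp
  choose P hP using hρ
  let Δ : Finset ℝ := Finset.univ.biUnion fun l => (hfin l).toFinset
  let Pts : Finset ℝ := {0, 1} ∪ Finset.univ.biUnion fun l : Fin d × Bool => P (ev φ [l])
  let Sh := shifts Δ (L + 2)
  have hΔ : ∀ l x, tau φ ρ [l] x ∈ Δ := fun l x =>
    Finset.mem_biUnion.2 ⟨l, Finset.mem_univ _, (hfin l).mem_toFinset.2 ⟨x, rfl⟩⟩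
  have hSh : ∀ (w : List (Fin d × Bool)) (x : Unit01), tau φ ρ w x ∈ shifts Δ w.length := by
    intro w x
    induction w with
    | nil => simp [tau, ev_nil, shifts]
    | cons l w ih =>
      rw [tau_cons, List.length_cons, shifts]
      exact Finset.mem_union_right _ (Finset.mem_image₂.2 ⟨_, hΔ _ _, _, ih, rfl⟩)
  let C : Finset ℝ := {x₀.1, x₀.1 + tau φ ρ [(i₀, true)] x₀} ∪ Pts ∪ Δ ∪ Sh ∪
    Finset.image₂ (fun p t => p - t) Pts Sh
  obtain ⟨ψ, hψ1, hψ⟩ := exists_rational C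
  have hC : ∀ c ∈ C, c ∈ Submodule.span ℚ (insert (1 : ℝ) (C : Set ℝ)) := fun c hc =>
    Submodule.subset_span (Set.mem_insert_of_mem _ hc)
  let f : ℝ → ℚ := fun c =>
    if h : c ∈ Submodule.span ℚ (insert (1 : ℝ) (C : Set ℝ)) then ψ ⟨c, h⟩ else 0
  have fadd : ∀ a b, a ∈ Submodule.span ℚ (insert (1 : ℝ) (C : Set ℝ)) →
      b ∈ Submodule.span ℚ (insert (1 : ℝ) (C : Set ℝ)) → f (a + b) = f a + f b := by
    intro a b ha hb
    simp only [f, dif_pos ha, dif_pos hb, dif_pos (add_mem ha hb)]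
    exact map_add ψ ⟨a, ha⟩ ⟨b, hb⟩
  have fsub : ∀ a b, a ∈ Submodule.span ℚ (insert (1 : ℝ) (C : Set ℝ)) →
      b ∈ Submodule.span ℚ (insert (1 : ℝ) (C : Set ℝ)) → f (a - b) = f a - f b := by
    intro a b ha hb
    simp only [f, dif_pos ha, dif_pos hb, dif_pos (sub_mem ha hb)]
    exact map_sub ψ ⟨a, ha⟩ ⟨b, hb⟩
  have f1 : f 1 = 1 := by
    have h : (1 : ℝ) ∈ Submodule.span ℚ (insert (1 : ℝ) (C : Set ℝ)) :=
      Submodule.subset_span (Set.mem_insert (1 : ℝ) _)
    simp only [f, dif_pos h]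
    exact hψ1
  have f0 : f 0 = 0 := by
    simp only [f, dif_pos (zero_mem _)]
    exact map_zero ψ
  have flt : ∀ a ∈ C, ∀ b ∈ C, a < b ↔ f a < f b := by
    intro a ha b hb
    simp only [f, dif_pos (hC a ha), dif_pos (hC b hb)]
    exact hψ ⟨a, hC a ha⟩ ⟨b, hC b hb⟩ ha hb
  have hPC : ∀ p ∈ Pts, p ∈ C := fun p hp => by simp [C, hp]
  have hSC : ∀ p ∈ Sh, p ∈ C := fun p hp => by simp [C, hp]
  have hDC : ∀ p ∈ Δ, p ∈ C := fun p hp => by simp [C, hp]
  have hsubC : ∀ p ∈ Pts, ∀ t ∈ Sh, p - t ∈ C := fun p hp t ht =>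
    Finset.mem_union_right _ (Finset.mem_image₂.2 ⟨p, hp, t, ht, rfl⟩)
  have h0P : (0 : ℝ) ∈ Pts := by simp [Pts]
  have h1P : (1 : ℝ) ∈ Pts := by simp [Pts]
  obtain ⟨N, hN, hden⟩ := exists_den ((insert x₀.1 Δ).image f)
  let Grid := {q : ℚ // 0 ≤ q ∧ q < 1 ∧ ∃ j : ℤ, q * N = j}
  haveI : Finite Grid := by
    refine Finite.of_injective (β := Fin N) (fun q => ⟨⌊q.1 * N⌋.toNat, ?_⟩) ?_
    · obtain ⟨h0, h1, j, hj⟩ := q.2
      rw [hj, Int.floor_intCast]
      have h2 : (j : ℚ) < (N : ℤ) := by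
        rw [← hj]; push_cast; nlinarith [(Nat.cast_pos (α := ℚ)).2 hN]
      have : j < (N : ℤ) := by exact_mod_cast h2
      omega
    · rintro ⟨a, ha0, ha1, i, hi⟩ ⟨b, hb0, hb1, j, hj⟩ hab
      simp only [Fin.mk.injEq, hi, hj, Int.floor_intCast] at hab
      have hNq : (0 : ℚ) < N := Nat.cast_pos.2 hN
      have hi0 : 0 ≤ i := by
        have : (0 : ℚ) ≤ i := hi ▸ mul_nonneg ha0 hNq.le
        exact_mod_cast this
      have hj0 : 0 ≤ j := by
        have : (0 : ℚ) ≤ j := hj ▸ mul_nonneg hb0 hNq.le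
        exact_mod_cast this
      have : i = j := by omega
      subst this
      exact Subtype.ext (mul_right_cancel₀ hNq.ne' (hi.trans hj.symm))
  -- a real point in the cell of a grid point
  have hlift : ∀ q : Grid, ∃ x : Unit01, ∀ c ∈ C,
      (x.1 < c ↔ q.1 < f c) ∧ (c < x.1 ↔ f c < q.1) := by
    rintro ⟨q, hq0, hq1, -⟩
    have hz : (0 : ℝ) ∈ C := hPC _ h0P
    have ho : (1 : ℝ) ∈ C := hPC _ h1P
    suffices ∃ x : ℝ, ∀ c ∈ C, (x < c ↔ q < f c) ∧ (c < x ↔ f c < q) by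
      obtain ⟨x, hx⟩ := this
      refine ⟨⟨x, le_of_not_gt fun h => ?_, (hx 1 ho).1.2 (f1.symm ▸ hq1)⟩, hx⟩
      have := (hx 0 hz).1.1 h
      rw [f0] at this
      exact absurd this (not_lt.2 hq0)
    by_cases hex : ∃ c ∈ C, f c = q
    · obtain ⟨c₀, hc₀, rfl⟩ := hex
      exact ⟨c₀, fun c hc => ⟨flt _ hc₀ _ hc, flt _ hc _ hc₀⟩⟩
    · push Not at hex
      obtain ⟨a, ha, hamax⟩ := (C.filter fun c => f c < q).exists_max_image id
        ⟨0, Finset.mem_filter.2 ⟨hz, f0.symm ▸ lt_of_le_of_ne hq0 (f0 ▸ hex 0 hz)⟩⟩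
      obtain ⟨b, hb, hbmin⟩ := (C.filter fun c => q < f c).exists_min_image id
        ⟨1, Finset.mem_filter.2 ⟨ho, f1.symm ▸ hq1⟩⟩
      simp only [Finset.mem_filter, id] at ha hamax hb hbmin
      have hab : a < b := (flt a ha.1 b hb.1).2 (ha.2.trans hb.2)
      refine ⟨(a + b) / 2, fun c hc => ?_⟩
      rcases lt_or_gt_of_ne (hex c hc) with h | h
      · have := hamax c ⟨hc, h⟩
        exact ⟨iff_of_false (by linarith) (not_lt.2 h.le), iff_of_true (by linarith) h⟩
      · have := hbmin c ⟨hc, h⟩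
        exact ⟨iff_of_true (by linarith) h, iff_of_false (by linarith) (not_lt.2 h.le)⟩
  choose lf hlf using hlift
  let raw : Fin d × Bool → Grid → ℚ := fun l q => q.1 + f (tau φ ρ [l] (lf q))
  have hspan : ∀ (w : List (Fin d × Bool)) (x : Unit01), w.length ≤ L + 2 →
      tau φ ρ w x ∈ Sh := fun w x hw => shifts_mono Δ hw (hSh w x)
  -- short words move grid points as they move the lifts
  have follow : ∀ (w : List (Fin d × Bool)) (q : Grid), w.length ≤ L + 2 →
      (0 ≤ q.1 + f (tau φ ρ w (lf q)) ∧ q.1 + f (tau φ ρ w (lf q)) < 1) ∧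
      ∀ (l : Fin d × Bool) (q' : Grid), (l :: w).length ≤ L + 2 →
        q'.1 = q.1 + f (tau φ ρ w (lf q)) →
        q'.1 + f (tau φ ρ [l] (lf q')) = q.1 + f (tau φ ρ (l :: w) (lf q)) := by
    intro w q hw
    have ht := hspan w (lf q) hw
    have cmp : ∀ p ∈ Pts, ((ρ (ev φ w) (lf q)).1 < p ↔ q.1 + f (tau φ ρ w (lf q)) < f p) ∧
        (p < (ρ (ev φ w) (lf q)).1 ↔ f p < q.1 + f (tau φ ρ w (lf q))) := by
      intro p hp
      have e : (ρ (ev φ w) (lf q)).1 = (lf q).1 + tau φ ρ w (lf q) := by simp [tau]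
      obtain ⟨h1, h2⟩ := hlf q _ (hsubC p hp _ ht)
      rw [fsub p _ (hC _ (hPC p hp)) (hC _ (hSC _ ht))] at h1 h2
      constructor
      · rw [e, ← lt_sub_iff_add_lt, h1, lt_sub_iff_add_lt]
      · rw [e, ← sub_lt_iff_lt_add, h2, sub_lt_iff_lt_add]
    refine ⟨⟨le_of_not_gt fun h => ?_, ?_⟩, fun l q' hlw hq' => ?_⟩
    · have := (cmp 0 h0P).1.2 (by rwa [f0])
      exact absurd this (not_lt.2 (ρ (ev φ w) (lf q)).2.1)
    · have := (cmp 1 h1P).1.1 (ρ (ev φ w) (lf q)).2.2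
      rwa [f1] at this
    · have hcell : SameCell (P (ev φ [l])) (lf q').1 (ρ (ev φ w) (lf q)).1 := by
        intro p hp
        have hp' : p ∈ Pts := Finset.mem_union_right _
          (Finset.mem_biUnion.2 ⟨l, Finset.mem_univ _, hp⟩)
        obtain ⟨h1, h2⟩ := hlf q' p (hPC p hp')
        obtain ⟨h3, h4⟩ := cmp p hp'
        rw [hq'] at h1 h2
        exact ⟨h1.trans h3.symm, h2.trans h4.symm⟩
      have e : tau φ ρ [l] (lf q') = tau φ ρ [l] (ρ (ev φ w) (lf q)) := hP _ _ _ hcell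
      rw [tau_cons φ ρ l w, fadd _ _ (hC _ (hDC _ (hΔ _ _))) (hC _ (hSC _ ht)), e, hq']
      ring
  have hmem : ∀ l q, 0 ≤ raw l q ∧ raw l q < 1 ∧ ∃ j : ℤ, raw l q * N = j := by
    intro l q
    obtain ⟨h0, h1⟩ := (follow [l] q (by simp)).1
    obtain ⟨j, hj⟩ := q.2.2.2
    obtain ⟨k, hk⟩ := hden (f (tau φ ρ [l] (lf q)))
      (Finset.mem_image_of_mem _ (Finset.mem_insert_of_mem (hΔ _ _)))
    exact ⟨h0, h1, j + k, by simp only [raw, add_mul, hj, hk]; push_cast; ring⟩
  let step : Fin d × Bool → Grid → Grid := fun l q => ⟨raw l q, hmem l q⟩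
  have hrun : ∀ (w : List (Fin d × Bool)), w.length ≤ L + 2 → ∀ q,
      (w.foldr step q).1 = q.1 + f (tau φ ρ w (lf q)) := by
    intro w
    induction w with
    | nil => intro _ q; simp [tau, ev_nil, f0]
    | cons l w ih =>
      intro hw q
      exact (follow w q (by simp at hw; omega)).2 l _ hw (ih (by simp at hw; omega) q)
  have hback : ∀ l q, step (inl' l) (step l q) = q := by
    intro l q
    apply Subtype.ext
    have := hrun [inl' l, l] (by simp) q
    simp only [List.foldr] at this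
    rw [this]
    have e : ev φ [inl' l, l] = 1 := by rw [ev_cons, ev_inl', inv_mul_cancel]
    simp [tau, e, f0]
  let gp : Fin d → Equiv.Perm Grid := fun i =>
    { toFun := step (i, true)
      invFun := step (i, false)
      left_inv := fun q => hback (i, true) q
      right_inv := fun q => hback (i, false) q }
  let Ψ : FreeGroup (Fin d) →* Equiv.Perm Grid := FreeGroup.lift gp
  have hΨ : ∀ (w : List (Fin d × Bool)) q, Ψ (FreeGroup.mk w) q = w.foldr step q := by
    intro w q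
    induction w with
    | nil => simp [Ψ, ← FreeGroup.one_eq_mk]
    | cons l w ih =>
      rw [show l :: w = [l] ++ w from rfl, ← FreeGroup.mul_mk, map_mul, Equiv.Perm.mul_apply, ih]
      obtain ⟨i, b⟩ := l
      cases b
      · have : FreeGroup.mk [(i, false)] = (FreeGroup.of i)⁻¹ := by
          simp [FreeGroup.of, FreeGroup.inv_mk, FreeGroup.invRev]
        rw [this, map_inv]
        simp only [Ψ, FreeGroup.lift_apply_of]
        rfl
      · rw [show FreeGroup.mk [(i, true)] = FreeGroup.of i from rfl]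
        simp only [Ψ, FreeGroup.lift_apply_of]
        rfl
  have hkill : φ.ker ≤ Ψ.ker := by
    rw [← hker]
    refine Subgroup.normalClosure_le_normal fun r hr => ?_
    rw [SetLike.mem_coe, MonoidHom.mem_ker, ← FreeGroup.mk_toWord (x := r)]
    refine Equiv.ext fun q => Subtype.ext ?_
    rw [hΨ, hrun _ ((hL r hr).trans (Nat.le_add_right _ _)), Equiv.Perm.one_apply]
    have h1 : ev φ (FreeGroup.toWord r) = 1 := by
      rw [ev, FreeGroup.mk_toWord, ← MonoidHom.mem_ker, ← hker]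
      exact Subgroup.subset_normalClosure hr
    simp [tau, h1, f0]
  obtain ⟨n, ⟨en⟩⟩ := Finite.exists_equiv_fin Grid
  have h3 := DFunLike.congr_fun (hG (Equiv.Perm (Fin n))
    ((en.permCongrHom.toMonoidHom).comp (φ.liftOfSurjective hφ ⟨Ψ, hkill⟩)))
    (φ (FreeGroup.of i₀))
  simp only [MonoidHom.comp_apply, MonoidHom.liftOfRightInverse_comp_apply,
    MonoidHom.one_apply] at h3
  have h4 : Ψ (FreeGroup.of i₀) = 1 := en.permCongrHom.injective (h3.trans (map_one _).symm)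
  have hx₀ : x₀.1 ∈ C := by simp [C]
  have hq0 : 0 ≤ f x₀.1 := by
    rw [← f0]
    exact le_of_not_gt fun h => absurd ((flt _ hx₀ _ (hPC _ h0P)).2 h) (not_lt.2 x₀.2.1)
  have hq1 : f x₀.1 < 1 := by
    rw [← f1]; exact (flt _ hx₀ _ (hPC _ h1P)).1 x₀.2.2
  let q₀ : Grid := ⟨f x₀.1, hq0, hq1,
    hden _ (Finset.mem_image_of_mem _ (Finset.mem_insert_self _ _))⟩
  have hlf0 : lf q₀ = x₀ := by
    obtain ⟨h1, h2⟩ := hlf q₀ _ hx₀
    refine Subtype.ext (le_antisymm (le_of_not_gt fun h => lt_irrefl _ (h2.1 h))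
      (le_of_not_gt fun h => lt_irrefl _ (h1.1 h)))
  have h5 := congrArg Subtype.val (hΨ [(i₀, true)] q₀)
  rw [show FreeGroup.mk [(i₀, true)] = FreeGroup.of i₀ from rfl, h4, Equiv.Perm.one_apply,
    hrun _ (by simp), hlf0] at h5
  set t := tau φ ρ [(i₀, true)] x₀ with ht
  have hxt : x₀.1 + t ∈ C := by simp [C, ht]
  have h6 : f (x₀.1 + t) = f x₀.1 := by
    rw [fadd _ _ (hC _ hx₀) (hC _ (hDC _ (hΔ _ _)))]
    exact h5.symm
  have h7 : x₀.1 + t = x₀.1 := by
    rcases lt_trichotomy (x₀.1 + t) x₀.1 with h | h | h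
    · exact absurd h6 ((flt _ hxt _ hx₀).1 h).ne
    · exact h
    · exact absurd h6 ((flt _ hx₀ _ hxt).1 h).ne'
  apply hne
  have h8 : t = 0 := by linarith
  have : (ρ (ev φ [(i₀, true)]) x₀).1 - x₀.1 = 0 := h8
  exact Subtype.ext (sub_eq_zero.1 this)

end Vale.Agent.P196
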