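import Mathlib

/-!
Linear systems with rational coefficients: feasibility of a sign pattern only depends on the signs
of finitely many rational combinations of the constants.
-/

namespace Vale.Agent.P196

/-- The same sign. -/
def SS (u v : ℝ) : Prop := (0 < u ↔ 0 < v) ∧ (u < 0 ↔ v < 0)

theorem SS.refl (u : ℝ) : SS u u := ⟨Iff.rfl, Iff.rfl⟩

theorem SS.symm {u v : ℝ} (h : SS u v) : SS v u := ⟨h.1.symm, h.2.symm⟩

theorem SS.trans {u v w : ℝ} (h : SS u v) (h' : SS v w) : SS u w :=
  ⟨h.1.trans h'.1, h.2.trans h'.2⟩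

theorem SS.zero_iff {u v : ℝ} (h : SS u v) : u = 0 ↔ v = 0 := by
  obtain ⟨h1, h2⟩ := h
  constructor
  · intro e
    rcases lt_trichotomy v 0 with h | h | h
    · exact absurd (h2.2 h) (by simp [e])
    · exact h
    · exact absurd (h1.2 h) (by simp [e])
  · intro e
    rcases lt_trichotomy u 0 with h | h | h
    · exact absurd (h2.1 h) (by simp [e])
    · exact h
    · exact absurd (h1.1 h) (by simp [e])

theorem SS.smul (k : ℝ) {u v : ℝ} (h : SS u v) : SS (k * u) (k * v) := by
  rcases lt_trichotomy k 0 with hk | hk | hk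
  · simp only [SS, mul_pos_iff, mul_neg_iff, hk, not_lt.2 hk.le, false_and, true_and, false_or]
    exact ⟨h.2, h.1⟩
  · simp [hk, SS]
  · simp only [SS, mul_pos_iff, mul_neg_iff, hk, not_lt.2 hk.le, false_and, true_and, or_false]
    exact h

/-- A point in the same position with respect to equally ordered configurations. -/
theorem exists_between_config {ι : Type*} (s : Finset ι) (p p' : ι → ℝ)
    (h : ∀ i ∈ s, ∀ j ∈ s, p i < p j ↔ p' i < p' j) (y : ℝ) :
    ∃ x, ∀ i ∈ s, SS (x - p i) (y - p' i) := by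
  classical
  simp only [SS, sub_pos, sub_neg]
  by_cases he : ∃ i ∈ s, p' i = y
  · obtain ⟨i, hi, rfl⟩ := he
    exact ⟨p i, fun j hj => ⟨h j hj i hi, h i hi j hj⟩⟩
  push Not at he
  by_cases hlo : (s.filter fun i => p' i < y).Nonempty
  · obtain ⟨a, ha, hamax⟩ := Finset.exists_max_image _ p hlo
    simp only [Finset.mem_filter] at ha hamax
    by_cases hhi : (s.filter fun i => y < p' i).Nonempty
    · obtain ⟨b, hb, hbmin⟩ := Finset.exists_min_image _ p hhi
      simp only [Finset.mem_filter] at hb hbmin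
      have hab : p a < p b := (h a ha.1 b hb.1).2 (ha.2.trans hb.2)
      refine ⟨(p a + p b) / 2, fun i hi => ?_⟩
      rcases lt_or_gt_of_ne (he i hi) with h' | h'
      · have := hamax i ⟨hi, h'⟩
        exact ⟨iff_of_true (by linarith) h', iff_of_false (by linarith) (not_lt.2 h'.le)⟩
      · have := hbmin i ⟨hi, h'⟩
        exact ⟨iff_of_false (by linarith) (not_lt.2 h'.le), iff_of_true (by linarith) h'⟩
    · refine ⟨p a + 1, fun i hi => ?_⟩
      have h' : p' i < y := (lt_or_gt_of_ne (he i hi)).resolve_right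
        fun h' => hhi ⟨i, Finset.mem_filter.2 ⟨hi, h'⟩⟩
      have := hamax i ⟨hi, h'⟩
      exact ⟨iff_of_true (by linarith) h', iff_of_false (by linarith) (not_lt.2 h'.le)⟩
  · have hall : ∀ i ∈ s, y < p' i := fun i hi => (lt_or_gt_of_ne (he i hi)).resolve_left
      fun h' => hlo ⟨i, Finset.mem_filter.2 ⟨hi, h'⟩⟩
    rcases s.eq_empty_or_nonempty with rfl | hs
    · exact ⟨0, by simp⟩
    obtain ⟨b, hb, hbmin⟩ := Finset.exists_min_image s p hs
    refine ⟨p b - 1, fun i hi => ?_⟩
    have := hbmin i hi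
    exact ⟨iff_of_false (by linarith) (not_lt.2 (hall i hi).le), iff_of_true (by linarith) (hall i hi)⟩

/-- Value of a rational affine form. -/
def lform {d : ℕ} (a : Fin d → ℚ) (v : ℝ) (x : Fin d → ℝ) : ℝ := ∑ j, (a j : ℝ) * x j + v

open Classical in
/-- Sign patterns realised after a sign preserving change of the constants are realised. -/
theorem exists_sign_lift : ∀ (d : ℕ) (F : Finset ((Fin d → ℚ) × ℝ)), ∃ W : Finset ℝ,
    ∀ ψ : ℝ →ₗ[ℚ] ℝ, (∀ w ∈ W, SS (ψ w) w) → ∀ y : Fin d → ℝ, ∃ x : Fin d → ℝ,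
      ∀ f ∈ F, SS (lform f.1 f.2 x) (lform f.1 (ψ f.2) y) := by
  intro d
  induction d with
  | zero =>
    intro F
    refine ⟨F.image Prod.snd, fun ψ hψ y => ⟨y, fun f hf => ?_⟩⟩
    simpa [lform] using (hψ _ (Finset.mem_image_of_mem _ hf)).symm
  | succ d ih =>
    intro F
    let F₀ : Finset ((Fin d → ℚ) × ℝ) :=
      (F.filter fun f => f.1 0 = 0).image fun f => (Fin.tail f.1, f.2)
    let root : (Fin (d + 1) → ℚ) × ℝ → (Fin d → ℚ) × ℝ := fun f =>
      (-(f.1 0)⁻¹ • Fin.tail f.1, -(f.1 0)⁻¹ • f.2)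
    let s := F.filter fun f => f.1 0 ≠ 0
    let F₁ : Finset ((Fin d → ℚ) × ℝ) := Finset.image₂ (fun f g => root f - root g) s s
    obtain ⟨W, hW⟩ := ih (F₀ ∪ F₁)
    refine ⟨W, fun ψ hψ y => ?_⟩
    obtain ⟨x, hx⟩ := hW ψ hψ (Fin.tail y)
    let p : (Fin (d + 1) → ℚ) × ℝ → ℝ := fun f => lform (root f).1 (root f).2 x
    let p' : (Fin (d + 1) → ℚ) × ℝ → ℝ := fun f => lform (root f).1 (ψ (root f).2) (Fin.tail y)
    have hord : ∀ f ∈ s, ∀ g ∈ s, p f < p g ↔ p' f < p' g := by
      intro f hf g hg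
      have h1 := (hx (root f - root g)
        (Finset.mem_union_right _ (Finset.mem_image₂.2 ⟨f, hf, g, hg, rfl⟩))).2
      have e1 : lform (root f - root g).1 (root f - root g).2 x = p f - p g := by
        simp only [p, lform, Prod.fst_sub, Prod.snd_sub, Pi.sub_apply, Rat.cast_sub, sub_mul,
          Finset.sum_sub_distrib]
        ring
      have e2 : lform (root f - root g).1 (ψ (root f - root g).2) (Fin.tail y) = p' f - p' g := by
        simp only [p', lform, Prod.fst_sub, Prod.snd_sub, Pi.sub_apply, Rat.cast_sub, sub_mul,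
          Finset.sum_sub_distrib, map_sub]
        ring
      rwa [e1, e2, sub_neg, sub_neg] at h1
    obtain ⟨x₀, hx₀⟩ := exists_between_config s p p' hord (y 0)
    refine ⟨Fin.cons x₀ x, fun f hf => ?_⟩
    by_cases h0 : f.1 0 = 0
    · have := hx (Fin.tail f.1, f.2)
        (Finset.mem_union_left _ (Finset.mem_image.2 ⟨f, Finset.mem_filter.2 ⟨hf, h0⟩, rfl⟩))
      simpa [lform, Fin.sum_univ_succ, h0, Fin.tail] using this
    · have h1 := (hx₀ f (Finset.mem_filter.2 ⟨hf, h0⟩)).smul (f.1 0 : ℝ)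
      have h0' : (f.1 0 : ℝ) ≠ 0 := by exact_mod_cast h0
      have e1 : (f.1 0 : ℝ) * (x₀ - p f) = lform f.1 f.2 (Fin.cons x₀ x) := by
        simp only [p, root, lform, Fin.sum_univ_succ, Fin.cons_zero, Fin.cons_succ, Pi.smul_apply,
          smul_eq_mul, Rat.cast_mul, Rat.cast_neg, Rat.cast_inv, Rat.smul_def, Fin.tail,
          mul_assoc, ← Finset.mul_sum]
        field_simp
        ring
      have er : ψ (-(f.1 0)⁻¹ • f.2) = -((f.1 0 : ℝ))⁻¹ * ψ f.2 := by
        rw [map_smul, Rat.smul_def]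
        push_cast
        ring
      have e2 : (f.1 0 : ℝ) * (y 0 - p' f) = lform f.1 (ψ f.2) y := by
        simp only [p', root]
        rw [er]
        simp only [lform, Fin.sum_univ_succ, Pi.smul_apply,
          smul_eq_mul, Rat.cast_mul, Rat.cast_neg, Rat.cast_inv, Rat.smul_def, Fin.tail,
          mul_assoc, ← Finset.mul_sum]
        field_simp
        ring
      rwa [e1, e2] at h1

end Vale.Agent.P196
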