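import Vale.Agent.P196.IET
import Vale.Agent.P196.Lift

/-!
Piecewise integral affine bijections of a cube: rational perturbations of the constants preserve
a finite grid, which gives finite quotients.
-/

noncomputable section

namespace Vale.Agent.P196

open Matrix

/-- The half open unit cube. -/
abbrev Cube (d : ℕ) := {x : Fin d → ℝ // ∀ i, 0 ≤ x i ∧ x i < 1}

/-- The same sign with respect to finitely many affine functions with integral linear part. -/
def SameCellZ {d : ℕ} (H : Finset ((Fin d → ℤ) × ℝ)) (x y : Fin d → ℝ) : Prop :=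
  ∀ h ∈ H, SS (∑ j, (h.1 j : ℝ) * x j + h.2) (∑ j, (h.1 j : ℝ) * y j + h.2)

/-- A bijection of the cube which, on each of finitely many cells cut out by affine functions with
integral linear part, is an affine map with integral linear part. -/
def IsPAM {d : ℕ} (g : Equiv.Perm (Cube d)) : Prop :=
  ∃ H : Finset ((Fin d → ℤ) × ℝ), ∀ x : Cube d, ∃ (M : Matrix (Fin d) (Fin d) ℤ) (t : Fin d → ℝ),
    ∀ y : Cube d, SameCellZ H x.1 y.1 → ∀ i, (g y).1 i = ∑ j, (M i j : ℝ) * y.1 j + t i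

/-- An affine map. -/
abbrev Aff (d : ℕ) := Matrix (Fin d) (Fin d) ℤ × (Fin d → ℝ)

/-- Application of an affine map. -/
def aff {d : ℕ} (A : Aff d) (x : Fin d → ℝ) : Fin d → ℝ :=
  fun i => ∑ j, (A.1 i j : ℝ) * x j + A.2 i

/-- The affine map with the constants changed by `ψ`. -/
def affMap {d : ℕ} (ψ : ℝ →ₗ[ℚ] ℝ) (A : Aff d) : Aff d := (A.1, fun i => ψ (A.2 i))

/-- Composition. -/
def affComp {d : ℕ} (A B : Aff d) : Aff d :=
  (A.1 * B.1, fun i => ∑ j, (A.1 i j : ℝ) * B.2 j + A.2 i)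

theorem aff_comp {d : ℕ} (A B : Aff d) (x : Fin d → ℝ) :
    aff (affComp A B) x = aff A (aff B x) := by
  funext i
  simp only [aff, affComp, Matrix.mul_apply, Int.cast_sum, Int.cast_mul, mul_add,
    Finset.sum_add_distrib, Finset.mul_sum, Finset.sum_mul]
  rw [Finset.sum_comm]
  simp only [mul_assoc]
  ring

theorem affMap_comp {d : ℕ} (ψ : ℝ →ₗ[ℚ] ℝ) (A B : Aff d) :
    affMap ψ (affComp A B) = affComp (affMap ψ A) (affMap ψ B) := by
  refine Prod.ext rfl (funext fun i => ?_)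
  simp only [affMap, affComp, map_add, map_sum]
  congr 1
  refine Finset.sum_congr rfl fun j _ => ?_
  rw [← zsmul_eq_mul, map_zsmul, zsmul_eq_mul]

variable {G : Type*} [Group G] [Group.IsFinitelyPresented G]

open Classical in
/-- No nontrivial action by piecewise integral affine bijections of a cube. -/
theorem trivial_of_pam (hG : ∀ (H : Type) [Group H] [Finite H] (f : G →* H), f = 1)
    {n : ℕ} (ρ : G →* Equiv.Perm (Cube n)) (hρ : ∀ g, IsPAM (ρ g)) : ρ = 1 := by
  obtain ⟨d, φ, hφ, R, hR, hker⟩ := Group.IsFinitelyPresented.out (G := G)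
  suffices hgen : ∀ (i : Fin d) (x : Cube n), ρ (φ (FreeGroup.of i)) x = x by
    refine MonoidHom.ext fun g => ?_
    obtain ⟨u, rfl⟩ := hφ g
    induction u using FreeGroup.induction_on with
    | C1 => simp
    | of i => exact Equiv.ext (hgen i)
    | inv_of i h => rw [map_inv, map_inv, h]; simp
    | mul u v hu hv => rw [map_mul, map_mul, hu, hv]; simp
  intro i₀ x₀
  by_contra hne
  obtain ⟨L, hL⟩ : ∃ L, ∀ r ∈ R, (FreeGroup.toWord r).length ≤ L :=
    ⟨hR.toFinset.sup fun r => (FreeGroup.toWord r).length, fun r hr =>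
      Finset.le_sup (f := fun r => (FreeGroup.toWord r).length) (hR.mem_toFinset.2 hr)⟩
  choose H hH using fun g => hρ g
  -- one affine map for every cell of every letter
  let key : Fin d × Bool → Cube n → Finset ((Fin n → ℤ) × ℝ) × Finset ((Fin n → ℤ) × ℝ) :=
    fun l x => ((H (ev φ [l])).filter fun h => 0 < ∑ j, (h.1 j : ℝ) * x.1 j + h.2,
      (H (ev φ [l])).filter fun h => ∑ j, (h.1 j : ℝ) * x.1 j + h.2 < 0)
  have hkey : ∀ l x y, key l x = key l y → SameCellZ (H (ev φ [l])) x.1 y.1 := by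
    intro l x y e h hh
    have e1 := Finset.ext_iff.1 (congrArg Prod.fst e) h
    have e2 := Finset.ext_iff.1 (congrArg Prod.snd e) h
    simp only [key, Finset.mem_filter, hh, true_and] at e1 e2
    exact ⟨e1, e2⟩
  have hpiece : ∀ l k, ∃ A : Aff n, ∀ y, key l y = k → (ρ (ev φ [l]) y).1 = aff A y.1 := by
    intro l k
    by_cases hk : ∃ x, key l x = k
    · obtain ⟨x, rfl⟩ := hk
      obtain ⟨M, t, hMt⟩ := hH (ev φ [l]) x
      exact ⟨(M, t), fun y hy => funext fun i => hMt y (hkey l x y hy.symm) i⟩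
    · exact ⟨(1, 0), fun y hy => (hk ⟨y, hy⟩).elim⟩
  choose piece hpiece using hpiece
  let keys : Fin d × Bool → Finset (Finset ((Fin n → ℤ) × ℝ) × Finset ((Fin n → ℤ) × ℝ)) :=
    fun l => (H (ev φ [l])).powerset ×ˢ (H (ev φ [l])).powerset
  have hkeys : ∀ l x, key l x ∈ keys l := fun l x => Finset.mem_product.2
    ⟨Finset.mem_powerset.2 (Finset.filter_subset _ _),
      Finset.mem_powerset.2 (Finset.filter_subset _ _)⟩
  let Δ : Finset (Aff n) := Finset.univ.biUnion fun l => (keys l).image (piece l)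
  let A₁ : Fin d × Bool → Cube n → Aff n := fun l x => piece l (key l x)
  have hΔ : ∀ l x, A₁ l x ∈ Δ := fun l x => Finset.mem_biUnion.2
    ⟨l, Finset.mem_univ _, Finset.mem_image_of_mem _ (hkeys l x)⟩
  let comps : ℕ → Finset (Aff n) := fun k =>
    Nat.rec {(1, 0)} (fun _ s => s ∪ Finset.image₂ affComp Δ s) k
  have hcomps : ∀ {j k : ℕ}, j ≤ k → comps j ⊆ comps k := by
    intro j k h
    induction h with
    | refl => exact Finset.Subset.refl _
    | step _ ih => exact ih.trans Finset.subset_union_left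
  -- the affine map of a word at a point
  let Aw : List (Fin d × Bool) → Cube n → Aff n := fun w x =>
    List.rec (1, 0) (fun l w A => affComp (A₁ l (ρ (ev φ w) x)) A) w
  have hAw : ∀ w x, Aw w x ∈ comps w.length ∧ (ρ (ev φ w) x).1 = aff (Aw w x) x.1 := by
    intro w x
    induction w with
    | nil =>
      refine ⟨Finset.mem_singleton_self _, funext fun i => ?_⟩
      simp [Aw, aff, ev_nil, Matrix.one_apply]
    | cons l w ih =>
      refine ⟨Finset.mem_union_right _ (Finset.mem_image₂.2 ⟨_, hΔ _ _, _, ih.1, rfl⟩), ?_⟩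
      show (ρ (ev φ (l :: w)) x).1 = aff (affComp (A₁ l (ρ (ev φ w) x)) (Aw w x)) x.1
      rw [aff_comp, ← ih.2, ev_cons φ l w, map_mul, Equiv.Perm.mul_apply]
      exact hpiece l _ _ rfl
  let Sh := comps (L + 2)
  let unitv : Fin n → Fin n → ℤ := fun i j => if i = j then 1 else 0
  let Hall : Finset ((Fin n → ℤ) × ℝ) := (Finset.univ.image fun i => (unitv i, (0 : ℝ))) ∪
    (Finset.univ.image fun i => (unitv i, (-1 : ℝ))) ∪ Finset.univ.biUnion fun l => H (ev φ [l])
  let pull : Aff n → (Fin n → ℤ) × ℝ → (Fin n → ℚ) × ℝ := fun A h =>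
    (fun j => ((∑ i, h.1 i * A.1 i j : ℤ) : ℚ), ∑ i, (h.1 i : ℝ) * A.2 i + h.2)
  let fixf : Aff n → Fin n → (Fin n → ℚ) × ℝ := fun A i =>
    (fun j => ((A.1 i j - unitv i j : ℤ) : ℚ), A.2 i)
  let F : Finset ((Fin n → ℚ) × ℝ) := Finset.image₂ pull Sh Hall ∪
    Finset.image₂ fixf Sh Finset.univ ∪
    Finset.univ.image fun i => ((fun j => (unitv i j : ℚ)), -x₀.1 i)
  obtain ⟨W, hW⟩ := exists_sign_lift n F
  obtain ⟨ψV, hψ1, hψV⟩ := exists_rational (insert 0 W)
  obtain ⟨ψq, hψq⟩ := LinearMap.exists_extend ψV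
  let ψ : ℝ →ₗ[ℚ] ℝ := (Algebra.linearMap ℚ ℝ).comp ψq
  have hψqV : ∀ a ha, ψq a = ψV ⟨a, ha⟩ := fun a ha =>
    LinearMap.congr_fun hψq ⟨a, ha⟩
  have hψW : ∀ w ∈ W, SS (ψ w) w := by
    intro w hw
    have hmem : ∀ c ∈ insert (0 : ℝ) W,
        c ∈ Submodule.span ℚ (insert (1 : ℝ) ((insert 0 W : Finset ℝ) : Set ℝ)) :=
      fun c hc => Submodule.subset_span (Set.mem_insert_of_mem _ (Finset.mem_coe.2 hc))
    have h0 : (0 : ℝ) ∈ insert (0 : ℝ) W := Finset.mem_insert_self _ _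
    have hw' := Finset.mem_insert_of_mem (b := (0 : ℝ)) hw
    have e0 : ψV ⟨0, hmem 0 h0⟩ = 0 := map_zero ψV
    have ew : ψ w = ((ψV ⟨w, hmem w hw'⟩ : ℚ) : ℝ) := by simp [ψ, hψqV _ (hmem w hw')]
    have a1 := hψV ⟨0, hmem 0 h0⟩ ⟨w, hmem w hw'⟩ h0 hw'
    have a2 := hψV ⟨w, hmem w hw'⟩ ⟨0, hmem 0 h0⟩ hw' h0
    rw [e0] at a1 a2
    rw [ew, SS, Rat.cast_pos, Rat.cast_lt_zero]
    exact ⟨a1.symm, a2.symm⟩
  have hψ1' : ψ (-1) = -1 := by
    have h : (1 : ℝ) ∈ Submodule.span ℚ (insert (1 : ℝ) ((insert 0 W : Finset ℝ) : Set ℝ)) :=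
      Submodule.subset_span (Set.mem_insert _ _)
    rw [map_neg]
    simp [ψ, hψqV _ h, hψ1]
  obtain ⟨N, hN, hden⟩ := exists_den
    ((Finset.univ.image fun i => ψq (x₀.1 i)) ∪
      (Δ ×ˢ Finset.univ).image fun p : Aff n × Fin n => ψq (p.1.2 p.2))
  let Grid := {q : Fin n → ℚ // ∀ i, 0 ≤ q i ∧ q i < 1 ∧ ∃ j : ℤ, q i * N = j}
  haveI : Finite Grid := by
    refine Finite.of_injective (β := Fin n → Fin N) (fun q i => ⟨⌊q.1 i * N⌋.toNat, ?_⟩) ?_
    · obtain ⟨h0, h1, j, hj⟩ := q.2 i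
      rw [hj, Int.floor_intCast]
      have h2 : (j : ℚ) < (N : ℤ) := by
        rw [← hj]; push_cast; nlinarith [(Nat.cast_pos (α := ℚ)).2 hN]
      have : j < (N : ℤ) := by exact_mod_cast h2
      omega
    · rintro ⟨a, ha⟩ ⟨b, hb⟩ hab
      refine Subtype.ext (funext fun k => ?_)
      obtain ⟨ha0, -, i, hi⟩ := ha k
      obtain ⟨hb0, -, j, hj⟩ := hb k
      have hk := congrArg Fin.val (congrFun hab k)
      simp only [hi, hj, Int.floor_intCast] at hk
      have hNq : (0 : ℚ) < N := Nat.cast_pos.2 hN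
      have hi0 : 0 ≤ i := by
        have : (0 : ℚ) ≤ i := hi ▸ mul_nonneg ha0 hNq.le
        exact_mod_cast this
      have hj0 : 0 ≤ j := by
        have : (0 : ℚ) ≤ j := hj ▸ mul_nonneg hb0 hNq.le
        exact_mod_cast this
      have : i = j := by omega
      subst this
      exact mul_right_cancel₀ hNq.ne' (hi.trans hj.symm)
  let rpt : Grid → Fin n → ℝ := fun q i => (q.1 i : ℝ)
  choose lf0 hlf0 using fun q : Grid => hW ψ hψW (rpt q)
  have hpullS : ∀ (A : Aff n), A ∈ Sh → ∀ h ∈ Hall, ∀ q : Grid,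
      SS (∑ i, (h.1 i : ℝ) * aff A (lf0 q) i + h.2)
        (∑ i, (h.1 i : ℝ) * aff (affMap ψ A) (rpt q) i + ψ h.2) := by
    intro A hA h hh q
    have := hlf0 q (pull A h) (Finset.mem_union_left _ (Finset.mem_union_left _
      (Finset.mem_image₂.2 ⟨A, hA, h, hh, rfl⟩)))
    have e : ∀ (v : Fin n → ℝ) (c : ℝ) (x : Fin n → ℝ),
        ∑ i, (h.1 i : ℝ) * aff (A.1, v) x i + c =
          lform (pull A h).1 (∑ i, (h.1 i : ℝ) * v i + c) x := by
      intro v c x
      simp only [lform, pull, aff, mul_add, Finset.sum_add_distrib, Finset.mul_sum, Int.cast_sum,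
        Int.cast_mul, Rat.cast_sum, Rat.cast_mul, Rat.cast_intCast, Finset.sum_mul]
      rw [Finset.sum_comm]
      simp only [mul_assoc]
      ring
    have e2 : ψ (pull A h).2 = ∑ i, (h.1 i : ℝ) * (affMap ψ A).2 i + ψ h.2 := by
      simp only [pull, affMap, map_add, map_sum]
      congr 1
      refine Finset.sum_congr rfl fun i _ => ?_
      rw [← zsmul_eq_mul, map_zsmul, zsmul_eq_mul]
    have ea := e A.2 h.2 (lf0 q)
    have eb := e (affMap ψ A).2 (ψ h.2) (rpt q)
    rw [← e2] at eb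
    exact (congrArg₂ SS ea eb).mpr this
  have h1S : ((1 : Matrix (Fin n) (Fin n) ℤ), (0 : Fin n → ℝ)) ∈ Sh :=
    hcomps (Nat.zero_le (L + 2)) (Finset.mem_singleton_self _)
  have aff1 : ∀ x : Fin n → ℝ, aff ((1 : Matrix (Fin n) (Fin n) ℤ), (0 : Fin n → ℝ)) x = x := by
    intro x; funext i; simp [aff, Matrix.one_apply]
  have aff1' : ∀ x : Fin n → ℝ,
      aff (affMap ψ ((1 : Matrix (Fin n) (Fin n) ℤ), (0 : Fin n → ℝ))) x = x := by
    intro x; funext i; simp [aff, affMap, Matrix.one_apply]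
  have hbase : ∀ h ∈ Hall, ∀ q : Grid, SS (∑ i, (h.1 i : ℝ) * lf0 q i + h.2)
      (∑ i, (h.1 i : ℝ) * rpt q i + ψ h.2) := by
    intro h hh q
    have := hpullS _ h1S h hh q
    rwa [aff1, aff1'] at this
  have hu : ∀ (i : Fin n) (v : Fin n → ℝ), ∑ j, (unitv i j : ℝ) * v j = v i := by
    intro i v; simp [unitv]
  have hlo : ∀ i, (unitv i, (0 : ℝ)) ∈ Hall := fun i => by simp [Hall]
  have hhi : ∀ i, (unitv i, (-1 : ℝ)) ∈ Hall := fun i => by simp [Hall]
  have hlfC : ∀ q : Grid, ∀ i, 0 ≤ lf0 q i ∧ lf0 q i < 1 := by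
    intro q i
    have h1 := (hbase _ (hlo i) q).2
    have h2 := (hbase _ (hhi i) q).2
    simp only [hu, map_zero, add_zero, hψ1', rpt] at h1 h2
    obtain ⟨q0, q1, -⟩ := q.2 i
    refine ⟨le_of_not_gt fun h => ?_, ?_⟩
    · exact not_lt.2 (show (0 : ℝ) ≤ (q.1 i : ℝ) by exact_mod_cast q0) (h1.1 h)
    · have : (q.1 i : ℝ) < 1 := by exact_mod_cast q1
      linarith [h2.2 (by linarith)]
  let lf : Grid → Cube n := fun q => ⟨lf0 q, hlfC q⟩
  let raw : Fin d × Bool → Grid → Fin n → ℝ := fun l q => aff (affMap ψ (A₁ l (lf q))) (rpt q)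
  have hspan : ∀ (w : List (Fin d × Bool)) (x : Cube n), w.length ≤ L + 2 → Aw w x ∈ Sh :=
    fun w x hw => hcomps hw (hAw w x).1
  -- short words move grid points as they move the lifts
  have follow : ∀ (w : List (Fin d × Bool)) (q : Grid), w.length ≤ L + 2 →
      (∀ i, 0 ≤ aff (affMap ψ (Aw w (lf q))) (rpt q) i ∧
        aff (affMap ψ (Aw w (lf q))) (rpt q) i < 1) ∧
      ∀ (l : Fin d × Bool) (q' : Grid), rpt q' = aff (affMap ψ (Aw w (lf q))) (rpt q) →
        raw l q' = aff (affMap ψ (Aw (l :: w) (lf q))) (rpt q) := by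
    intro w q hw
    have cmp : ∀ h ∈ Hall, SS (∑ i, (h.1 i : ℝ) * (ρ (ev φ w) (lf q)).1 i + h.2)
        (∑ i, (h.1 i : ℝ) * aff (affMap ψ (Aw w (lf q))) (rpt q) i + ψ h.2) := by
      intro h hh
      rw [(hAw w (lf q)).2]
      exact hpullS _ (hspan w _ hw) h hh q
    refine ⟨fun i => ⟨le_of_not_gt fun h => ?_, ?_⟩, fun l q' hq' => ?_⟩
    · have h1 := (cmp _ (hlo i)).2
      simp only [hu, map_zero, add_zero] at h1
      exact not_lt.2 ((ρ (ev φ w) (lf q)).2 i).1 (h1.2 h)
    · have h1 := (cmp _ (hhi i)).2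
      simp only [hu, hψ1'] at h1
      linarith [h1.1 (by linarith [((ρ (ev φ w) (lf q)).2 i).2])]
    · have ek : key l (lf q') = key l (ρ (ev φ w) (lf q)) := by
        have hc : ∀ h ∈ H (ev φ [l]), SS (∑ i, (h.1 i : ℝ) * (lf q').1 i + h.2)
            (∑ i, (h.1 i : ℝ) * (ρ (ev φ w) (lf q)).1 i + h.2) := by
          intro h hh
          have hh' : h ∈ Hall := Finset.mem_union_right _
            (Finset.mem_biUnion.2 ⟨l, Finset.mem_univ _, hh⟩)
          have := hbase h hh' q'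
          rw [hq'] at this
          exact this.trans (cmp h hh').symm
        refine Prod.ext (Finset.filter_congr fun h hh => (hc h hh).1)
          (Finset.filter_congr fun h hh => (hc h hh).2)
      show aff (affMap ψ (piece l (key l (lf q')))) (rpt q') =
        aff (affMap ψ (affComp (A₁ l (ρ (ev φ w) (lf q))) (Aw w (lf q)))) (rpt q)
      rw [ek, affMap_comp, aff_comp, hq']
  have hAwnil : ∀ x, Aw [] x = ((1 : Matrix (Fin n) (Fin n) ℤ), (0 : Fin n → ℝ)) := fun _ => rfl
  have hraw1 : ∀ l q, raw l q = aff (affMap ψ (Aw [l] (lf q))) (rpt q) := by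
    intro l q
    refine (follow [] q (by simp)).2 l q ?_
    rw [hAwnil (lf q), aff1']
  have hmem : ∀ l q, ∃ q' : Grid, rpt q' = raw l q := by
    intro l q
    set A := A₁ l (lf q) with hA
    let v : Fin n → ℚ := fun i => ∑ j, (A.1 i j : ℚ) * q.1 j + ψq (A.2 i)
    have hv : (fun i => (v i : ℝ)) = raw l q := by
      funext i
      simp [raw, aff, affMap, v, rpt, ψ, ← hA]
    refine ⟨⟨v, fun i => ?_⟩, hv⟩
    obtain ⟨h0, h1⟩ := (follow [l] q (by simp)).1 i
    rw [← hraw1, ← hv] at h0 h1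
    simp only at h0 h1
    obtain ⟨k, hk⟩ := hden (ψq (A.2 i)) (Finset.mem_union_right _
      (Finset.mem_image.2 ⟨(A, i), Finset.mem_product.2 ⟨hΔ _ _, Finset.mem_univ _⟩, rfl⟩))
    choose j hj using fun j => (q.2 j).2.2
    refine ⟨by exact_mod_cast h0, by exact_mod_cast h1, ∑ j', A.1 i j' * j j' + k, ?_⟩
    simp only [v, add_mul, Finset.sum_mul, mul_assoc, hj, hk]
    push_cast
    rfl
  choose step hstep using hmem
  have hrun : ∀ (w : List (Fin d × Bool)), w.length ≤ L + 2 → ∀ q,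
      rpt (w.foldr step q) = aff (affMap ψ (Aw w (lf q))) (rpt q) := by
    intro w
    induction w with
    | nil => intro _ q; rw [List.foldr_nil, hAwnil (lf q), aff1']
    | cons l w ih =>
      intro hw q
      rw [List.foldr_cons, hstep]
      exact (follow w q (by simp at hw; omega)).2 l _ (ih (by simp at hw; omega) q)
  -- fixed lifts give fixed grid points
  have hfixf : ∀ A ∈ Sh, ∀ (q : Grid) (i : Fin n),
      aff (affMap ψ A) (rpt q) i = rpt q i ↔ aff A (lf0 q) i = lf0 q i := by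
    intro A hA q i
    have := (hlf0 q (fixf A i) (Finset.mem_union_left _ (Finset.mem_union_right _
      (Finset.mem_image₂.2 ⟨A, hA, i, Finset.mem_univ _, rfl⟩)))).zero_iff
    simp only [lform, fixf, Int.cast_sub, Rat.cast_sub, Rat.cast_intCast, sub_mul,
      Finset.sum_sub_distrib, hu] at this
    simp only [aff, affMap]
    constructor
    · intro e
      linarith [this.2 (by linarith)]
    · intro e
      linarith [this.1 (by linarith)]
  have hrpt : Function.Injective rpt := fun a b e =>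
    Subtype.ext (funext fun i => Rat.cast_injective (congrFun e i))
  have hid : ∀ w, w.length ≤ L + 2 → ev φ w = 1 → ∀ q, w.foldr step q = q := by
    intro w hw he q
    refine hrpt ?_
    rw [hrun w hw]
    funext i
    rw [hfixf _ (hspan w _ hw) q i, ← show (ρ (ev φ w) (lf q)).1 = aff (Aw w (lf q)) (lf0 q) from
      (hAw w (lf q)).2, he, map_one]
    rfl
  have hback : ∀ l q, step (inl' l) (step l q) = q := fun l q =>
    hid [inl' l, l] (by simp) (by rw [ev_cons, ev_inl', inv_mul_cancel]) q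
  let gp : Fin d → Equiv.Perm Grid := fun i =>
    { toFun := step (i, true)
      invFun := step (i, false)
      left_inv := fun q => hback (i, true) q
      right_inv := fun q => hback (i, false) q }
  let Ψ : FreeGroup (Fin d) →* Equiv.Perm Grid := FreeGroup.lift gp
  have hΨ : ∀ (w : List (Fin d × Bool)) q, Ψ (FreeGroup.mk w) q = w.foldr step q := by
    intro w q
    induction w with
    | nil => simp [Ψ, ← FreeGroup.one_eq_mk]
    | cons l w ih =>
      rw [show l :: w = [l] ++ w from rfl, ← FreeGroup.mul_mk, map_mul, Equiv.Perm.mul_apply, ih]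
      obtain ⟨i, b⟩ := l
      cases b
      · have : FreeGroup.mk [(i, false)] = (FreeGroup.of i)⁻¹ := by
          simp [FreeGroup.of, FreeGroup.inv_mk, FreeGroup.invRev]
        rw [this, map_inv]
        simp only [Ψ, FreeGroup.lift_apply_of]
        rfl
      · rw [show FreeGroup.mk [(i, true)] = FreeGroup.of i from rfl]
        simp only [Ψ, FreeGroup.lift_apply_of]
        rfl
  have hkill : φ.ker ≤ Ψ.ker := by
    rw [← hker]
    refine Subgroup.normalClosure_le_normal fun r hr => ?_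
    rw [SetLike.mem_coe, MonoidHom.mem_ker, ← FreeGroup.mk_toWord (x := r)]
    refine Equiv.ext fun q => ?_
    rw [hΨ, Equiv.Perm.one_apply]
    refine hid _ ((hL r hr).trans (Nat.le_add_right _ _)) ?_ q
    rw [ev, FreeGroup.mk_toWord, ← MonoidHom.mem_ker, ← hker]
    exact Subgroup.subset_normalClosure hr
  obtain ⟨m, ⟨en⟩⟩ := Finite.exists_equiv_fin Grid
  have h3 := DFunLike.congr_fun (hG (Equiv.Perm (Fin m))
    ((en.permCongrHom.toMonoidHom).comp (φ.liftOfSurjective hφ ⟨Ψ, hkill⟩)))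
    (φ (FreeGroup.of i₀))
  simp only [MonoidHom.comp_apply, MonoidHom.liftOfRightInverse_comp_apply,
    MonoidHom.one_apply] at h3
  have h4 : Ψ (FreeGroup.of i₀) = 1 := en.permCongrHom.injective (h3.trans (map_one _).symm)
  -- the perturbed base point
  have hx0F : ∀ i, ((fun j => (unitv i j : ℚ)), -x₀.1 i) ∈ F := fun i =>
    Finset.mem_union_right _ (Finset.mem_image_of_mem _ (Finset.mem_univ i))
  have hx₀' : ∀ i, 0 ≤ ψq (x₀.1 i) ∧ ψq (x₀.1 i) < 1 ∧ ∃ j : ℤ, ψq (x₀.1 i) * N = j := by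
    intro i
    obtain ⟨x, hx⟩ := hW ψ hψW (fun k => ψ (x₀.1 k))
    have hxx : ∀ k, x k = x₀.1 k := by
      intro k
      have := (hx _ (hx0F k)).zero_iff
      simp only [lform, Rat.cast_intCast, hu, map_neg] at this
      linarith [this.2 (by ring)]
    have hz : ∀ h ∈ Hall, SS (∑ k, (h.1 k : ℝ) * x₀.1 k + h.2)
        (∑ k, (h.1 k : ℝ) * ψ (x₀.1 k) + ψ h.2) := by
      intro h hh
      have := hx (pull ((1 : Matrix (Fin n) (Fin n) ℤ), (0 : Fin n → ℝ)) h)
        (Finset.mem_union_left _ (Finset.mem_union_left _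
          (Finset.mem_image₂.2 ⟨_, h1S, h, hh, rfl⟩)))
      simpa [lform, pull, Matrix.one_apply, hxx] using this
    have h1 := (hz _ (hlo i)).2
    have h2 := (hz _ (hhi i)).2
    simp only [hu, map_zero, add_zero, hψ1'] at h1 h2
    have ei : ψ (x₀.1 i) = ((ψq (x₀.1 i) : ℚ) : ℝ) := by simp [ψ]
    rw [ei] at h1 h2
    refine ⟨le_of_not_gt fun h => ?_, ?_,
      hden _ (Finset.mem_union_left _ (Finset.mem_image_of_mem _ (Finset.mem_univ i)))⟩
    · exact not_lt.2 (x₀.2 i).1 (h1.2 (by exact_mod_cast h))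
    · have := h2.1 (by linarith [(x₀.2 i).2])
      have h' : ((ψq (x₀.1 i) : ℚ) : ℝ) < 1 := by linarith
      exact_mod_cast h'
  let q₀ : Grid := ⟨fun i => ψq (x₀.1 i), hx₀'⟩
  have hl0 : lf0 q₀ = x₀.1 := by
    funext k
    have := (hlf0 q₀ _ (hx0F k)).zero_iff
    simp only [lform, Rat.cast_intCast, hu, map_neg] at this
    linarith [this.2 (by simp [rpt, q₀, ψ])]
  have hlf : lf q₀ = x₀ := Subtype.ext hl0
  have h5 := hrun [(i₀, true)] (by simp) q₀
  rw [← hΨ, show FreeGroup.mk [(i₀, true)] = FreeGroup.of i₀ from rfl, h4,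
    Equiv.Perm.one_apply] at h5
  refine hne (Subtype.ext (funext fun k => ?_))
  have h6 := (hfixf _ (hspan [(i₀, true)] _ (by simp)) q₀ k).1 (congrFun h5 k).symm
  rw [hlf] at h6
  rw [show φ (FreeGroup.of i₀) = ev φ [(i₀, true)] from rfl, (hAw _ x₀).2]
  rw [hl0] at h6
  exact h6

end Vale.Agent.P196
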