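import Vale.Agent.P196.Gap
import Vale.Agent.P196.IET
import Vale.Agent.P196.PAM

/-!
The class of groups built from the excluded ones by subgroups, extensions and directed unions.
-/

namespace Vale.Agent.P196

/-- All finitely presented simple subgroups are finite. -/
def NoSimple (A : Type) [Group A] : Prop :=
  ∀ (S : Type) [Group S] [Group.IsFinitelyPresented S] [IsSimpleGroup S] (f : S →* A),
    Function.Injective f → Finite S

theorem noSimple_of_residuallyFinite {A : Type} [Group A]
    (h : ∀ x : A, x ≠ 1 → ∃ (H : Type) (_ : Group H) (_ : Finite H) (f : A →* H), f x ≠ 1) :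
    NoSimple A := by
  intro S _ _ _ f hf
  by_contra hS
  haveI : Infinite S := not_finite_iff_infinite.1 hS
  obtain ⟨s, hs⟩ := exists_ne (1 : S)
  obtain ⟨H, _, _, k, hk⟩ := h (f s) fun e => hs (hf (by simpa using e))
  exact hk (DFunLike.congr_fun (no_finite_quotient_of_simple H (k.comp f)) s)

theorem noSimple_of_boundedType {A : Type} [Group A] {a : ℕ → ℕ}
    (ρ : A →* Equiv.Perm (∀ k, Fin (a k))) (hi : Function.Injective ρ)
    (hρ : ∀ g, BoundedType (ρ g)) : NoSimple A := by
  intro S _ _ _ f hf
  by_contra hS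
  haveI : Infinite S := not_finite_iff_infinite.1 hS
  obtain ⟨s, hs⟩ := exists_ne (1 : S)
  refine hs (hf (hi ?_))
  simpa using DFunLike.congr_fun
    (trivial_of_boundedType no_finite_quotient_of_simple (ρ.comp f) fun g => hρ _) s

theorem noSimple_of_fullGroup {A : Type} [Group A] {Y : Type} (τ : Equiv.Perm Y)
    (ρ : A →* Equiv.Perm Y) (hi : Function.Injective ρ)
    (hρ : ∀ g, ∃ K : Finset ℤ, ∀ y, ∃ k ∈ K, ρ g y = (τ ^ k) y) : NoSimple A := by
  intro S _ _ _ f hf
  by_contra hS
  haveI : Infinite S := not_finite_iff_infinite.1 hS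
  obtain ⟨s, hs⟩ := exists_ne (1 : S)
  refine hs (hf (hi ?_))
  simpa using DFunLike.congr_fun
    (trivial_of_fullGroup no_finite_quotient_of_simple τ (ρ.comp f) fun g => hρ _) s

theorem noSimple_of_iet {A : Type} [Group A] (ρ : A →* Equiv.Perm Unit01)
    (hi : Function.Injective ρ) (hρ : ∀ g, IsIET (ρ g)) : NoSimple A := by
  intro S _ _ _ f hf
  by_contra hS
  haveI : Infinite S := not_finite_iff_infinite.1 hS
  obtain ⟨s, hs⟩ := exists_ne (1 : S)
  refine hs (hf (hi ?_))
  simpa using DFunLike.congr_fun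
    (trivial_of_iet no_finite_quotient_of_simple (ρ.comp f) fun g => hρ _) s

theorem noSimple_of_pam {A : Type} [Group A] {n : ℕ} (ρ : A →* Equiv.Perm (Cube n))
    (hi : Function.Injective ρ) (hρ : ∀ g, IsPAM (ρ g)) : NoSimple A := by
  intro S _ _ _ f hf
  by_contra hS
  haveI : Infinite S := not_finite_iff_infinite.1 hS
  obtain ⟨s, hs⟩ := exists_ne (1 : S)
  refine hs (hf (hi ?_))
  simpa using DFunLike.congr_fun
    (trivial_of_pam no_finite_quotient_of_simple (ρ.comp f) fun g => hρ _) s

/-- The smallest class containing finite, abelian and residually finite groups, subgroups of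
full groups of `ℤ`-actions, groups of homeomorphisms of bounded type, groups of interval
exchanges and groups of piecewise integral affine bijections of cubes, closed under subgroups, extensions, directed unions and local embeddability. -/
inductive Built : ∀ (A : Type) [Group A], Prop
  | abelian (A : Type) [Group A] (h : ∀ x y : A, x * y = y * x) : Built A
  | finite (A : Type) [Group A] [Finite A] : Built A
  | resFinite (A : Type) [Group A]
      (h : ∀ x : A, x ≠ 1 → ∃ (H : Type) (_ : Group H) (_ : Finite H) (f : A →* H), f x ≠ 1) :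
      Built A
  | full (A : Type) [Group A] (Y : Type) (τ : Equiv.Perm Y) (ρ : A →* Equiv.Perm Y)
      (hi : Function.Injective ρ)
      (hρ : ∀ g, ∃ K : Finset ℤ, ∀ y, ∃ k ∈ K, ρ g y = (τ ^ k) y) : Built A
  | bdd (A : Type) [Group A] (a : ℕ → ℕ) (ρ : A →* Equiv.Perm (∀ k, Fin (a k)))
      (hi : Function.Injective ρ) (hρ : ∀ g, BoundedType (ρ g)) : Built A
  | iet (A : Type) [Group A] (ρ : A →* Equiv.Perm Unit01) (hi : Function.Injective ρ)
      (hρ : ∀ g, IsIET (ρ g)) : Built A
  | pam (A : Type) [Group A] (n : ℕ) (ρ : A →* Equiv.Perm (Cube n))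
      (hi : Function.Injective ρ) (hρ : ∀ g, IsPAM (ρ g)) : Built A
  | sub (A A' : Type) [Group A] [Group A'] (f : A →* A') (hf : Function.Injective f) :
      Built A' → Built A
  | ext (A : Type) [Group A] (N : Subgroup A) [N.Normal] : Built N → Built (A ⧸ N) → Built A
  | union (A : Type) [Group A] (ι : Type) [Nonempty ι] (U : ι → Subgroup A)
      (hdir : Directed (· ≤ ·) U) (htop : ∀ x, ∃ i, x ∈ U i) : (∀ i, Built (U i)) → Built A
  | locallyEmbeddable (A : Type) [Group A] (B : Finset A → Type) [∀ E, Group (B E)]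
      (φ : ∀ E, A → B E) (hinj : ∀ E : Finset A, Set.InjOn (φ E) E)
      (hmul : ∀ E : Finset A, ∀ x ∈ E, ∀ y ∈ E, x * y ∈ E → φ E (x * y) = φ E x * φ E y) :
      (∀ E, Built (B E)) → Built A

/-- `NoSimple` passes to groups locally embeddable into groups with `NoSimple`. -/
theorem noSimple_of_locallyEmbeddable {A : Type} [Group A] (B : Finset A → Type)
    [∀ E, Group (B E)] (φ : ∀ E, A → B E) (hinj : ∀ E : Finset A, Set.InjOn (φ E) E)
    (hmul : ∀ E : Finset A, ∀ x ∈ E, ∀ y ∈ E, x * y ∈ E → φ E (x * y) = φ E x * φ E y)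
    (h : ∀ E, NoSimple (B E)) : NoSimple A := by
  classical
  intro S _ _ _ f hf
  obtain ⟨d, π, hπ, R, hR, hker⟩ := Group.IsFinitelyPresented.out (G := S)
  obtain ⟨L, hL⟩ : ∃ L, ∀ r ∈ R, (FreeGroup.toWord r).length ≤ L :=
    ⟨hR.toFinset.sup fun r => (FreeGroup.toWord r).length, fun r hr =>
      Finset.le_sup (f := fun r => (FreeGroup.toWord r).length) (hR.mem_toFinset.2 hr)⟩
  let E : Finset A := (List.finite_length_le (Fin d × Bool) (L + 1)).toFinset.image
    fun l => f (π (FreeGroup.mk l))
  have hE : ∀ l : List (Fin d × Bool), l.length ≤ L + 1 → f (π (FreeGroup.mk l)) ∈ E :=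
    fun l hl => Finset.mem_image_of_mem _ ((List.finite_length_le _ _).mem_toFinset.2 hl)
  have h1E : (1 : A) ∈ E := by
    simpa [← FreeGroup.one_eq_mk] using hE [] (Nat.zero_le _)
  have hφ1 : φ E 1 = 1 := by
    have := hmul E 1 h1E 1 h1E (by rwa [mul_one])
    rwa [mul_one, eq_comm, mul_eq_left] at this
  let k : FreeGroup (Fin d) →* B E := FreeGroup.lift fun i => φ E (f (π (FreeGroup.of i)))
  have hgen : ∀ i, f (π (FreeGroup.of i)) ∈ E := fun i =>
    hE [(i, true)] (Nat.succ_le_succ (Nat.zero_le _))
  have hlet : ∀ a : Fin d × Bool, k (FreeGroup.mk [a]) = φ E (f (π (FreeGroup.mk [a]))) := by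
    rintro ⟨i, _ | _⟩
    · have e : FreeGroup.mk [(i, false)] = (FreeGroup.of i)⁻¹ := rfl
      have hi : f (π (FreeGroup.mk [(i, false)])) ∈ E :=
        hE [(i, false)] (Nat.succ_le_succ (Nat.zero_le _))
      rw [e, map_inv, map_inv] at hi
      have h2 := hmul E _ (hgen i) _ hi (by rwa [mul_inv_cancel])
      rw [mul_inv_cancel, hφ1] at h2
      rw [e, map_inv, map_inv, map_inv, FreeGroup.lift_apply_of]
      exact inv_eq_of_mul_eq_one_right h2.symm
    · exact FreeGroup.lift_apply_of
  have hword : ∀ l : List (Fin d × Bool), l.length ≤ L →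
      k (FreeGroup.mk l) = φ E (f (π (FreeGroup.mk l))) := by
    intro l
    induction l with
    | nil => intro _; simp [← FreeGroup.one_eq_mk, hφ1]
    | cons a l ih =>
      intro hl
      simp only [List.length_cons] at hl
      have e : FreeGroup.mk (a :: l) = FreeGroup.mk [a] * FreeGroup.mk l := by
        rw [FreeGroup.mul_mk]; rfl
      have h3 := hE (a :: l) (by simp; omega)
      rw [e, map_mul, map_mul] at h3
      rw [e, map_mul, hlet, ih (by omega), map_mul, map_mul,
        hmul E _ (hE [a] (Nat.succ_le_succ (Nat.zero_le _))) _ (hE l (by omega)) h3]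
  have hkill : π.ker ≤ k.ker := by
    rw [← hker]
    refine Subgroup.normalClosure_le_normal fun r hr => ?_
    rw [SetLike.mem_coe, MonoidHom.mem_ker, ← FreeGroup.mk_toWord (x := r), hword _ (hL r hr),
      FreeGroup.mk_toWord]
    have : r ∈ π.ker := hker ▸ Subgroup.subset_normalClosure hr
    rw [MonoidHom.mem_ker.1 this, map_one, hφ1]
  let k' : S →* B E := π.liftOfSurjective hπ ⟨k, hkill⟩
  refine h E S k' ((MonoidHom.ker_eq_bot_iff _).1 ?_)
  refine (IsSimpleGroup.eq_bot_or_eq_top_of_normal k'.ker (MonoidHom.normal_ker _)).resolve_right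
    fun htop => ?_
  have hall : ∀ i, π (FreeGroup.of i) = 1 := by
    intro i
    have hk : k' (π (FreeGroup.of i)) = 1 := by
      rw [← MonoidHom.mem_ker, htop]; exact Subgroup.mem_top _
    have e : k' (π (FreeGroup.of i)) = φ E (f (π (FreeGroup.of i))) :=
      (π.liftOfRightInverse_comp_apply _ _ ⟨k, hkill⟩ _).trans FreeGroup.lift_apply_of
    refine hf ?_
    rw [map_one]
    exact hinj E (hgen i) h1E ((e.symm.trans hk).trans hφ1.symm)
  obtain ⟨s, hs⟩ := exists_ne (1 : S)
  obtain ⟨u, rfl⟩ := hπ s
  refine hs ?_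
  induction u using FreeGroup.induction_on with
  | C1 => simp
  | of i => exact hall i
  | inv_of i h => rw [map_inv, hall i, inv_one]
  | mul u v hu hv =>
    rw [map_mul]
    by_cases h1 : π u = 1
    · by_cases h2 : π v = 1
      · rw [h1, h2, one_mul]
      · exact absurd (hv h2) h2
    · exact absurd (hu h1) h1

theorem Built.noSimple {A : Type} [Group A] (h : Built A) : NoSimple A := by
  induction h with
  | abelian A h =>
    intro S _ _ _ f hf
    by_contra hS
    haveI : Infinite S := not_finite_iff_infinite.1 hS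
    have hc : ∀ x y : S, x * y = y * x := fun x y => hf (by rw [map_mul, map_mul, h])
    let _ : CommGroup S := { ‹Group S› with mul_comm := hc }
    exact hS IsSimpleGroup.finite
  | finite A => exact fun S _ _ _ f hf => Finite.of_injective f hf
  | resFinite A h => exact noSimple_of_residuallyFinite h
  | full A Y τ ρ hi hρ => exact noSimple_of_fullGroup τ ρ hi hρ
  | bdd A a ρ hi hρ => exact noSimple_of_boundedType ρ hi hρ
  | iet A ρ hi hρ => exact noSimple_of_iet ρ hi hρ
  | pam A n ρ hi hρ => exact noSimple_of_pam ρ hi hρ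
  | sub A A' f hf _ ih => exact fun S _ _ _ g hg => ih S (f.comp g) (hf.comp hg)
  | ext A N _ _ ihN ihQ =>
    intro S _ _ _ f hf
    rcases IsSimpleGroup.eq_bot_or_eq_top_of_normal ((QuotientGroup.mk' N).comp f).ker
      (MonoidHom.normal_ker _) with h | h
    · exact ihQ S _ ((MonoidHom.ker_eq_bot_iff _).1 h)
    · refine ihN S (f.codRestrict N fun x => ?_) fun x y e => hf (congrArg Subtype.val e)
      have : x ∈ ((QuotientGroup.mk' N).comp f).ker := h ▸ Subgroup.mem_top x
      simpa using this
  | union A ι U hdir htop _ ih =>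
    intro S _ _ _ f hf
    classical
    obtain ⟨d, φ, hφ, -⟩ := Group.IsFinitelyPresented.out (G := S)
    choose i hi using htop
    obtain ⟨j, hj⟩ := hdir.finset_le (Finset.univ.image fun k : Fin d => i (f (φ (FreeGroup.of k))))
    have hall : ∀ x, f x ∈ U j := by
      intro x
      obtain ⟨u, rfl⟩ := hφ x
      induction u using FreeGroup.induction_on with
      | C1 => simp
      | of k => exact hj _ (Finset.mem_image.2 ⟨k, Finset.mem_univ _, rfl⟩) (hi _)
      | inv_of k h => rw [map_inv, map_inv]; exact inv_mem h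
      | mul u v hu hv => rw [map_mul, map_mul]; exact mul_mem hu hv
    exact ih j S (f.codRestrict (U j) hall) fun x y e => hf (congrArg Subtype.val e)
  | locallyEmbeddable A B φ hinj hmul _ ih => exact noSimple_of_locallyEmbeddable B φ hinj hmul ih

end Vale.Agent.P196
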