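import Mathlib

/-!
A finitely presented group without finite quotients cannot act nontrivially with boundedly many
points on the boundaries of an exhaustion by finite sets: two boundaries with the same local
picture can be glued, giving a finite quotient.
-/

namespace Vale.Agent.P196

open FreeGroup (invRev mul_mk inv_mk)

variable {G : Type*} [Group G] {X : Type*} [MulAction G X]

/-- Finite sets whose boundaries, for any fixed finite set of group elements, are uniformly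
small, exhaust the set. -/
def BoundedCuts (G : Type*) [Group G] (X : Type*) [MulAction G X] : Prop :=
  ∀ E : Finset G, ∃ B : ℕ, ∀ A : Finset X, ∃ F N : Finset X, A ⊆ F ∧ N.card ≤ B ∧
    ∀ x, ∀ g ∈ E, ¬(x ∈ F ↔ g • x ∈ F) → x ∈ N

variable {d : ℕ}

/-- The inverse letter. -/
def inl' (l : Fin d × Bool) : Fin d × Bool := (l.1, !l.2)

theorem inl'_inl' (l : Fin d × Bool) : inl' (inl' l) = l := by simp [inl']

/-- The value of a word. -/
def ev (φ : FreeGroup (Fin d) →* G) (w : List (Fin d × Bool)) : G := φ (FreeGroup.mk w)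

variable (φ : FreeGroup (Fin d) →* G)

theorem ev_nil : ev φ [] = 1 := by rw [ev, ← FreeGroup.one_eq_mk, map_one]

theorem ev_cons (l : Fin d × Bool) (w : List (Fin d × Bool)) :
    ev φ (l :: w) = ev φ [l] * ev φ w := by
  rw [ev, ev, ev, ← map_mul, mul_mk]; rfl

theorem ev_append (u v : List (Fin d × Bool)) : ev φ (u ++ v) = ev φ u * ev φ v := by
  rw [ev, ev, ev, ← map_mul, mul_mk]

theorem ev_invRev (w : List (Fin d × Bool)) : ev φ (invRev w) = (ev φ w)⁻¹ := by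
  rw [ev, ev, ← map_inv, inv_mk]

theorem ev_inl' (l : Fin d × Bool) : ev φ [inl' l] = (ev φ [l])⁻¹ := by
  rw [← ev_invRev]; simp [inl', invRev]

/-- Points near which a short word crosses the boundary of `F`. -/
def nbd (φ : FreeGroup (Fin d) →* G) (L : ℕ) (F : Finset X) : Set X :=
  {x | ∃ w : List (Fin d × Bool), w.length ≤ L + 2 ∧ ¬(x ∈ F ↔ ev φ w • x ∈ F)}

/-- Data for gluing the two boundaries of `F' \ F`. -/
structure Glue (φ : FreeGroup (Fin d) →* G) (L : ℕ) (F F' : Finset X) where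
  ball : ∀ (w : List (Fin d × Bool)) (x : X), w.length ≤ L + 2 →
    (x ∈ F ∨ x ∈ nbd φ L F) → ev φ w • x ∈ F'
  pi : X → X
  rho : X → X
  pi_mem : ∀ p ∈ nbd φ L F, pi p ∈ nbd φ L F' ∧ rho (pi p) = p ∧ (p ∈ F ↔ pi p ∈ F')
  rho_mem : ∀ q ∈ nbd φ L F', rho q ∈ nbd φ L F ∧ pi (rho q) = q ∧ (rho q ∈ F ↔ q ∈ F')
  pi_step : ∀ l : Fin d × Bool, ∀ p ∈ nbd φ L F, ev φ [l] • p ∈ nbd φ L F →
    pi (ev φ [l] • p) = ev φ [l] • pi p
  rho_step : ∀ l : Fin d × Bool, ∀ q ∈ nbd φ L F', ev φ [l] • q ∈ nbd φ L F' →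
    rho (ev φ [l] • q) = ev φ [l] • rho q

namespace Glue

variable {φ} {L : ℕ} {F F' : Finset X} (Γ : Glue φ L F F')

include Γ in
theorem nbd_sub {p : X} (hp : p ∈ nbd φ L F) : p ∈ F' := by
  simpa [ev_nil] using Γ.ball [] p (by simp) (Or.inr hp)

include Γ in
theorem sub {p : X} (hp : p ∈ F) : p ∈ F' := by
  simpa [ev_nil] using Γ.ball [] p (by simp) (Or.inl hp)

include Γ in
theorem nbd'_not {p : X} (hp : p ∈ nbd φ L F') : p ∉ F := by
  intro h
  obtain ⟨w, hw, hne⟩ := hp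
  exact hne (iff_of_true (Γ.sub h) (Γ.ball w p hw (Or.inl h)))

/-- Moving a point back into `F' \ F`. -/
noncomputable def adj (z : X) : X := by
  classical exact if z ∈ F then Γ.pi z else if z ∉ F' then Γ.rho z else z

/-- The action of a word on `F' \ F`. -/
noncomputable def run : List (Fin d × Bool) → X → X
  | [], y => y
  | l :: w, y => Γ.adj (ev φ [l] • run w y)

theorem adj_mid {z : X} (h1 : z ∉ F) (h2 : z ∈ F') : Γ.adj z = z := by
  simp [adj, h1, h2]

theorem adj_in {z : X} (h : z ∈ F) : Γ.adj z = Γ.pi z := by simp [adj, h]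

theorem adj_out {z : X} (h2 : z ∉ F') : Γ.adj z = Γ.rho z := by
  have h1 : z ∉ F := fun h => h2 (Γ.sub h)
  simp [adj, h1, h2]

theorem near_in {y : X} (hy : y ∉ F) {w : List (Fin d × Bool)} (hw : w.length ≤ L + 1)
    (hp : ev φ w • y ∈ F) (l : Fin d × Bool) :
    ev φ w • y ∈ nbd φ L F ∧ ev φ [l] • ev φ w • y ∈ nbd φ L F := by
  refine ⟨⟨invRev w, by simp; omega, ?_⟩, ?_⟩
  · rw [ev_invRev, inv_smul_smul]; simp [hp, hy]
  · by_cases hz : ev φ [l] • ev φ w • y ∈ F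
    · refine ⟨invRev (l :: w), by simp; omega, ?_⟩
      rw [ev_invRev, ev_cons φ l w, mul_inv_rev, mul_smul, inv_smul_smul, inv_smul_smul]
      simp [hz, hy]
    · refine ⟨[inl' l], by simp, ?_⟩
      rw [ev_inl', inv_smul_smul]; simp [hz, hp]

theorem near_out {y : X} (hy : y ∈ F') {w : List (Fin d × Bool)} (hw : w.length ≤ L + 1)
    (hp : ev φ w • y ∉ F') (l : Fin d × Bool) :
    ev φ w • y ∈ nbd φ L F' ∧ ev φ [l] • ev φ w • y ∈ nbd φ L F' := by
  refine ⟨⟨invRev w, by simp; omega, ?_⟩, ?_⟩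
  · rw [ev_invRev, inv_smul_smul]; simp [hp, hy]
  · by_cases hz : ev φ [l] • ev φ w • y ∈ F'
    · refine ⟨[inl' l], by simp, ?_⟩
      rw [ev_inl', inv_smul_smul]; simp [hz, hp]
    · refine ⟨invRev (l :: w), by simp; omega, ?_⟩
      rw [ev_invRev, ev_cons φ l w, mul_inv_rev, mul_smul, inv_smul_smul, inv_smul_smul]
      simp [hz, hy]

/-- Short words act as they do in the original set. -/
theorem run_eq {y : X} (h1 : y ∉ F) (h2 : y ∈ F') :
    ∀ w : List (Fin d × Bool), w.length ≤ L + 2 → Γ.run w y = Γ.adj (ev φ w • y) := by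
  intro w
  induction w with
  | nil => intro _; simp [run, ev_nil, Γ.adj_mid h1 h2]
  | cons l w ih =>
    intro hw
    simp only [List.length_cons] at hw
    rw [run, ih (by omega), ev_cons φ l w, mul_smul]
    by_cases hin : ev φ w • y ∈ F
    · obtain ⟨hp, hlp⟩ := near_in (L := L) h1 (w := w) (by omega) hin l
      rw [Γ.adj_in hin, ← Γ.pi_step l _ hp hlp]
      by_cases hz : ev φ [l] • ev φ w • y ∈ F
      · rw [Γ.adj_in hz, Γ.adj_mid (Γ.nbd'_not (Γ.pi_mem _ hlp).1)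
          ((Γ.pi_mem _ hlp).2.2.1 hz)]
      · rw [Γ.adj_mid hz (Γ.nbd_sub hlp),
          Γ.adj_out (fun h => hz ((Γ.pi_mem _ hlp).2.2.2 h)), (Γ.pi_mem _ hlp).2.1]
    · by_cases hout : ev φ w • y ∈ F'
      · rw [Γ.adj_mid hin hout]
      · obtain ⟨hp, hlp⟩ := near_out (L := L) h2 (w := w) (by omega) hout l
        rw [Γ.adj_out hout, ← Γ.rho_step l _ hp hlp]
        by_cases hz : ev φ [l] • ev φ w • y ∈ F'
        · rw [Γ.adj_mid (Γ.nbd'_not hlp) hz, Γ.adj_in ((Γ.rho_mem _ hlp).2.2.2 hz),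
            (Γ.rho_mem _ hlp).2.1]
        · rw [Γ.adj_out hz, Γ.adj_mid (fun h => hz ((Γ.rho_mem _ hlp).2.2.1 h))
            (Γ.nbd_sub (Γ.rho_mem _ hlp).1)]

theorem run_mem {y : X} (h1 : y ∉ F) (h2 : y ∈ F') (l : Fin d × Bool) :
    Γ.adj (ev φ [l] • y) ∉ F ∧ Γ.adj (ev φ [l] • y) ∈ F' := by
  by_cases hin : ev φ [l] • y ∈ F
  · have hp := (near_in h1 (w := [l]) (L := L) (by simp) hin l).1
    rw [Γ.adj_in hin]
    exact ⟨Γ.nbd'_not (Γ.pi_mem _ hp).1, (Γ.pi_mem _ hp).2.2.1 hin⟩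
  · by_cases hout : ev φ [l] • y ∈ F'
    · rw [Γ.adj_mid hin hout]; exact ⟨hin, hout⟩
    · have hp := (near_out h2 (w := [l]) (L := L) (by simp) hout l).1
      rw [Γ.adj_out hout]
      exact ⟨fun h => hout ((Γ.rho_mem _ hp).2.2.1 h), Γ.nbd_sub (Γ.rho_mem _ hp).1⟩

/-- The glued set. -/
abbrev Mid (_ : Glue φ L F F') := {y : X // y ∉ F ∧ y ∈ F'}

instance : Finite Γ.Mid :=
  Finite.of_injective (fun y : Γ.Mid => (⟨y.1, y.2.2⟩ : {y // y ∈ F'}))
    fun a b h => Subtype.ext (Subtype.mk.injEq .. ▸ h)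

/-- One letter. -/
noncomputable def stepF (l : Fin d × Bool) (y : Γ.Mid) : Γ.Mid :=
  ⟨Γ.adj (ev φ [l] • y.1), Γ.run_mem y.2.1 y.2.2 l⟩

theorem stepF_inv (l : Fin d × Bool) (y : Γ.Mid) : Γ.stepF (inl' l) (Γ.stepF l y) = y := by
  apply Subtype.ext
  have := Γ.run_eq y.2.1 y.2.2 [inl' l, l] (by simp)
  simp only [run] at this
  simp only [stepF, this]
  rw [show ev φ [inl' l, l] = 1 by rw [ev_cons, ev_inl', inv_mul_cancel], one_smul,
    Γ.adj_mid y.2.1 y.2.2]

/-- One generator. -/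
noncomputable def genPerm (i : Fin d) : Equiv.Perm Γ.Mid where
  toFun := Γ.stepF (i, true)
  invFun := Γ.stepF (i, false)
  left_inv y := Γ.stepF_inv (i, true) y
  right_inv y := Γ.stepF_inv (i, false) y

/-- The finite action. -/
noncomputable def psi : FreeGroup (Fin d) →* Equiv.Perm Γ.Mid := FreeGroup.lift Γ.genPerm

theorem psi_letter (l : Fin d × Bool) (y : Γ.Mid) :
    Γ.psi (FreeGroup.mk [l]) y = Γ.stepF l y := by
  obtain ⟨i, b⟩ := l
  cases b
  · have : FreeGroup.mk [(i, false)] = (FreeGroup.of i)⁻¹ := by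
      simp [FreeGroup.of, FreeGroup.inv_mk, FreeGroup.invRev]
    rw [this, map_inv, psi, FreeGroup.lift_apply_of]
    rfl
  · rw [show FreeGroup.mk [(i, true)] = FreeGroup.of i from rfl, psi, FreeGroup.lift_apply_of]
    rfl

theorem psi_mk (w : List (Fin d × Bool)) (y : Γ.Mid) :
    ((Γ.psi (FreeGroup.mk w) y : Γ.Mid) : X) = Γ.run w y.1 := by
  induction w with
  | nil => simp [psi, run, ← FreeGroup.one_eq_mk]
  | cons l w ih =>
    rw [show l :: w = [l] ++ w from rfl, ← mul_mk, map_mul, Equiv.Perm.mul_apply, psi_letter]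
    show Γ.adj (ev φ [l] • _) = Γ.adj (ev φ [l] • Γ.run w y.1)
    rw [ih]

theorem psi_rel {w : List (Fin d × Bool)} (hw : w.length ≤ L) (h1 : ev φ w = 1) :
    Γ.psi (FreeGroup.mk w) = 1 := by
  ext y
  rw [psi_mk, Γ.run_eq y.2.1 y.2.2 w (by omega), h1, one_smul, Γ.adj_mid y.2.1 y.2.2]
  simp

end Glue

/-- The local picture of a boundary. -/
abbrev Pat (d B : ℕ) :=
  Set (Fin (B + 1)) × Set (Fin (B + 1)) × Set ((Fin d × Bool) × Fin (B + 1) × Fin (B + 1))

/-- The local picture of the boundary of `F` in coordinates `e`. -/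
def pat (L B : ℕ) (F : Finset X) (e : X → Fin (B + 1)) : Pat d B :=
  (e '' nbd φ L F, e '' (nbd φ L F ∩ F),
    {t | ∃ p ∈ nbd φ L F, ev φ [t.1] • p ∈ nbd φ L F ∧ e p = t.2.1 ∧ e (ev φ [t.1] • p) = t.2.2})

/-- Equal local pictures give the data for gluing. -/
theorem pat_match [Nonempty X] {L B : ℕ} {F F' : Finset X} {e e' : X → Fin (B + 1)}
    (he : Set.InjOn e (nbd φ L F)) (he' : Set.InjOn e' (nbd φ L F'))
    (h : pat φ L B F e = pat φ L B F' e') :
    ∃ f : X → X, (∀ p ∈ nbd φ L F,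
        f p ∈ nbd φ L F' ∧ e' (f p) = e p ∧ (p ∈ F ↔ f p ∈ F')) ∧
      ∀ l : Fin d × Bool, ∀ p ∈ nbd φ L F, ev φ [l] • p ∈ nbd φ L F →
        f (ev φ [l] • p) = ev φ [l] • f p := by
  simp only [pat, Prod.mk.injEq] at h
  obtain ⟨h1, h2, h3⟩ := h
  let f : X → X := fun p => Function.invFunOn e' (nbd φ L F') (e p)
  have hf : ∀ p ∈ nbd φ L F, f p ∈ nbd φ L F' ∧ e' (f p) = e p := fun p hp => by
    have : e p ∈ e' '' nbd φ L F' := h1 ▸ ⟨p, hp, rfl⟩
    exact ⟨Function.invFunOn_mem this, Function.invFunOn_eq this⟩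
  refine ⟨f, fun p hp => ⟨(hf p hp).1, (hf p hp).2, ?_, ?_⟩, fun l p hp hlp => ?_⟩
  · intro hpF
    have : e p ∈ e' '' (nbd φ L F' ∩ F') := h2 ▸ ⟨p, ⟨hp, hpF⟩, rfl⟩
    obtain ⟨q, ⟨hq, hqF⟩, hqe⟩ := this
    rwa [← he' hq (hf p hp).1 (hqe.trans (hf p hp).2.symm)]
  · intro hqF
    have : e' (f p) ∈ e '' (nbd φ L F ∩ F) := h2 ▸ ⟨f p, ⟨(hf p hp).1, hqF⟩, rfl⟩
    obtain ⟨q, ⟨hq, hqF⟩, hqe⟩ := this
    rwa [← he hq hp (hqe.trans (hf p hp).2)]
  · have : (l, e p, e (ev φ [l] • p)) ∈ {t : (Fin d × Bool) × Fin (B + 1) × Fin (B + 1) |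
        ∃ q ∈ nbd φ L F', ev φ [t.1] • q ∈ nbd φ L F' ∧ e' q = t.2.1 ∧
          e' (ev φ [t.1] • q) = t.2.2} := h3 ▸ ⟨p, hp, hlp, rfl, rfl⟩
    obtain ⟨q, hq, hlq, hqe, hlqe⟩ := this
    simp only at hlq hqe hlqe
    have hqp : q = f p := he' hq (hf p hp).1 (hqe.trans (hf p hp).2.symm)
    subst hqp
    exact he' (hf _ hlp).1 hlq ((hf _ hlp).2.trans hlqe.symm)

theorem finite_ball (L : ℕ) (A : Set X) (hA : A.Finite) :
    {z : X | ∃ w : List (Fin d × Bool), w.length ≤ L ∧ ∃ a ∈ A, z = ev φ w • a}.Finite := by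
  refine Set.Finite.subset (((List.finite_length_le _ L).prod hA).image
    fun t : List (Fin d × Bool) × X => ev φ t.1 • t.2) ?_
  rintro z ⟨w, hw, a, ha, rfl⟩
  exact ⟨(w, a), ⟨hw, ha⟩, rfl⟩

/-- A generator of a finitely presented group without finite quotients moves only finitely many
points. -/
theorem finite_moved [Group.IsFinitelyPresented G]
    (hG : ∀ (H : Type) [Group H] [Finite H] (f : G →* H), f = 1)
    (hX : BoundedCuts G X) : ∀ g : G, {x : X | g • x ≠ x}.Finite := by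
  classical
  obtain ⟨d, φ, hφ, R, hR, hker⟩ := Group.IsFinitelyPresented.out (G := G)
  suffices hgen : ∀ i, {x : X | φ (FreeGroup.of i) • x ≠ x}.Finite by
    intro g
    obtain ⟨u, rfl⟩ := hφ g
    induction u using FreeGroup.induction_on with
    | C1 => simp
    | of i => exact hgen i
    | inv_of i h =>
      refine h.subset fun x hx hx' => hx ?_
      rw [map_inv]
      exact inv_smul_eq_iff.2 hx'.symm
    | mul u v hu hv =>
      refine (hu.union hv).subset fun x hx => ?_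
      by_contra hc
      simp only [Set.mem_union, Set.mem_ofPred_eq, not_or, not_not] at hc
      exact hx (by rw [map_mul, mul_smul, hc.2, hc.1])
  intro i
  by_contra hinf
  obtain ⟨x₀, -⟩ := Set.Infinite.nonempty hinf
  have : Nonempty X := ⟨x₀⟩
  obtain ⟨L, hL⟩ : ∃ L, ∀ r ∈ R, (FreeGroup.toWord r).length ≤ L :=
    ⟨hR.toFinset.sup fun r => (FreeGroup.toWord r).length, fun r hr =>
      Finset.le_sup (f := fun r => (FreeGroup.toWord r).length) (hR.mem_toFinset.2 hr)⟩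
  obtain ⟨B, hB⟩ := hX ((List.finite_length_le (Fin d × Bool) (L + 2)).toFinset.image (ev φ))
  have hsucc : ∀ F : Finset X, (∃ e : X → Fin (B + 1), Set.InjOn e (nbd φ L F)) →
      ∃ F' : Finset X, (∃ e : X → Fin (B + 1), Set.InjOn e (nbd φ L F')) ∧
        (∀ (w : List (Fin d × Bool)) (x : X), w.length ≤ L + 2 →
          (x ∈ F ∨ x ∈ nbd φ L F) → ev φ w • x ∈ F') ∧
        ∃ x, (x ∉ F ∧ x ∈ F') ∧ (φ (FreeGroup.of i) • x ∉ F ∧ φ (FreeGroup.of i) • x ∈ F') ∧
          φ (FreeGroup.of i) • x ≠ x := by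
    intro F hF
    obtain ⟨e, he⟩ := hF
    have hN : (nbd φ L F).Finite :=
      Set.Finite.of_finite_image (Set.toFinite _) he
    obtain ⟨x, hx, hx'⟩ := Set.Infinite.exists_notMem_finset hinf
      (F ∪ F.image fun z => (φ (FreeGroup.of i))⁻¹ • z)
    simp only [Finset.mem_union, Finset.mem_image, not_or, not_exists, not_and] at hx'
    have hA := (finite_ball φ (L + 2) (↑F ∪ nbd φ L F) (F.finite_toSet.union hN)).union
      (Set.toFinite {x, φ (FreeGroup.of i) • x})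
    obtain ⟨F', N, hsub, hcard, hbd⟩ := hB hA.toFinset
    refine ⟨F', ?_, ?_, x, ⟨hx'.1, hsub (by simp)⟩, ⟨?_, hsub (by simp)⟩, hx⟩
    · have hsub' : nbd φ L F' ⊆ ↑N := fun z ⟨w, hw, hne⟩ => hbd z (ev φ w)
        (Finset.mem_image.2 ⟨w, (List.finite_length_le _ _).mem_toFinset.2 hw, rfl⟩) hne
      refine ⟨fun z => if h : z ∈ N then ⟨(N.equivFin ⟨z, h⟩).1, by omega⟩ else 0, ?_⟩
      intro a ha b hb hab
      have ha' : a ∈ N := hsub' ha
      have hb' : b ∈ N := hsub' hb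
      simp only [ha', hb', ↓reduceDIte, Fin.mk.injEq] at hab
      exact congrArg Subtype.val (N.equivFin.injective (Fin.ext hab))
    · intro w z hw hz
      refine hsub (hA.mem_toFinset.2 (Or.inl ⟨w, hw, z, ?_, rfl⟩))
      simpa using hz
    · exact fun h => hx'.2 _ h (by simp)
  choose nxt hnxt using hsucc
  let seq : ℕ → {F : Finset X // ∃ e : X → Fin (B + 1), Set.InjOn e (nbd φ L F)} :=
    fun n => Nat.rec ⟨∅, fun _ => 0, fun a ⟨w, _, h⟩ => by simp at h⟩
      (fun _ p => ⟨nxt p.1 p.2, (hnxt p.1 p.2).1⟩) n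
  have hseq : ∀ n, (seq (n + 1)).1 = nxt (seq n).1 (seq n).2 := fun _ => rfl
  have hmono : Monotone fun n => (seq n).1 := monotone_nat_of_le_succ fun n z hz => by
    rw [hseq]
    simpa [ev_nil] using (hnxt _ (seq n).2).2.1 [] z (by simp) (Or.inl hz)
  choose e he using fun n => (seq n).2
  obtain ⟨a, b, hab, heq⟩ : ∃ a b, a < b ∧
      pat φ L B (seq a).1 (e a) = pat φ L B (seq b).1 (e b) := by
    obtain ⟨a, b, hne, h⟩ := Finite.exists_ne_map_eq_of_infinite
      (fun n => pat φ L B (seq n).1 (e n))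
    rcases lt_or_gt_of_ne hne with h' | h'
    · exact ⟨a, b, h', h⟩
    · exact ⟨b, a, h', h.symm⟩
  have hstep := hnxt (seq a).1 (seq a).2
  have hle : (seq (a + 1)).1 ≤ (seq b).1 := hmono hab
  rw [hseq] at hle
  obtain ⟨f, hf, hfl⟩ := pat_match φ (he a) (he b) heq
  obtain ⟨f', hf', hfl'⟩ := pat_match φ (he b) (he a) heq.symm
  let Γ : Glue φ L (seq a).1 (seq b).1 :=
    { ball := fun w z hw hz => hle (hstep.2.1 w z hw hz)
      pi := f
      rho := f'
      pi_mem := fun p hp => ⟨(hf p hp).1,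
        he a (hf' _ (hf p hp).1).1 hp (by rw [(hf' _ (hf p hp).1).2.1, (hf p hp).2.1]),
        (hf p hp).2.2⟩
      rho_mem := fun q hq => ⟨(hf' q hq).1,
        he b (hf _ (hf' q hq).1).1 hq (by rw [(hf _ (hf' q hq).1).2.1, (hf' q hq).2.1]),
        (hf' q hq).2.2.symm⟩
      pi_step := hfl
      rho_step := hfl' }
  have hkill : φ.ker ≤ Γ.psi.ker := by
    rw [← hker]
    refine Subgroup.normalClosure_le_normal fun r hr => ?_
    rw [SetLike.mem_coe, MonoidHom.mem_ker, ← FreeGroup.mk_toWord (x := r)]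
    refine Γ.psi_rel (hL r hr) ?_
    rw [ev, FreeGroup.mk_toWord, ← MonoidHom.mem_ker, ← hker]
    exact Subgroup.subset_normalClosure hr
  obtain ⟨x, ⟨hx1, hx2⟩, ⟨hgx1, hgx2⟩, hne⟩ := hstep.2.2
  obtain ⟨n, ⟨en⟩⟩ := Finite.exists_equiv_fin Γ.Mid
  have h1 := hG (Equiv.Perm (Fin n))
    ((en.permCongrHom.toMonoidHom).comp (φ.liftOfSurjective hφ ⟨Γ.psi, hkill⟩))
  have h2 : Γ.psi (FreeGroup.of i) = 1 := by
    have h3 := DFunLike.congr_fun h1 (φ (FreeGroup.of i))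
    simp only [MonoidHom.comp_apply, MonoidHom.liftOfRightInverse_comp_apply,
      MonoidHom.one_apply] at h3
    exact en.permCongrHom.injective (h3.trans (map_one _).symm)
  have h4 := Γ.psi_mk [(i, true)] ⟨x, hx1, hle hx2⟩
  rw [show FreeGroup.mk [(i, true)] = FreeGroup.of i from rfl, h2] at h4
  simp only [Equiv.Perm.one_apply, Glue.run] at h4
  rw [show ev φ [(i, true)] = φ (FreeGroup.of i) from rfl, Γ.adj_mid hgx1 (hle hgx2)] at h4
  exact hne h4.symm

end Vale.Agent.P196
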