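import Vale.Agent.P196.Glue

/-!
Consequences: trivial action, linear growth of Schreier graphs, topological full groups of `ℤ`.
-/

namespace Vale.Agent.P196

open Pointwise

variable {G : Type*} [Group G] [Group.IsFinitelyPresented G]

/-- Every action with boundedly small boundaries is trivial. -/
theorem trivial_of_boundedCuts
    (hG : ∀ (H : Type) [Group H] [Finite H] (f : G →* H), f = 1)
    {X : Type*} [MulAction G X] (hX : BoundedCuts G X) : ∀ (g : G) (x : X), g • x = x := by
  classical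
  obtain ⟨d, φ, hφ, -⟩ := Group.IsFinitelyPresented.out (G := G)
  have hfin := finite_moved hG hX
  set M : Set X := ⋃ i, {x | φ (FreeGroup.of i) • x ≠ x} with hMdef
  have hM : M.Finite := Set.finite_iUnion fun i => hfin _
  have hfix : ∀ (g : G) (x : X), x ∉ M → g • x = x := by
    intro g x hx
    obtain ⟨u, rfl⟩ := hφ g
    simp only [hMdef, Set.mem_iUnion, Set.mem_ofPred_eq, not_exists, not_not] at hx
    induction u using FreeGroup.induction_on with
    | C1 => simp
    | of i => exact hx i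
    | inv_of i h => rw [map_inv]; exact inv_smul_eq_iff.2 h.symm
    | mul a b ha hb => rw [map_mul, mul_smul, hb, ha]
  have hmem : ∀ (g : G) (x : X), x ∈ M → g • x ∈ M := by
    intro g x hx
    by_contra h
    have h1 := hfix g⁻¹ _ h
    rw [inv_smul_smul] at h1
    exact h (h1 ▸ hx)
  haveI : Finite M := hM
  let f : G →* Equiv.Perm M :=
    { toFun := fun g =>
        { toFun := fun x => ⟨g • x.1, hmem g x.1 x.2⟩
          invFun := fun x => ⟨g⁻¹ • x.1, hmem g⁻¹ x.1 x.2⟩
          left_inv := fun x => Subtype.ext (inv_smul_smul g x.1)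
          right_inv := fun x => Subtype.ext (smul_inv_smul g x.1) }
      map_one' := by ext x; simp
      map_mul' := fun a b => by ext x; simp [mul_smul] }
  obtain ⟨n, ⟨en⟩⟩ := Finite.exists_equiv_fin M
  intro g x
  by_cases hx : x ∈ M
  · have h1 := DFunLike.congr_fun
      (hG (Equiv.Perm (Fin n)) (en.permCongrHom.toMonoidHom.comp f)) g
    have h2 : f g = 1 := en.permCongrHom.injective (h1.trans (map_one _).symm)
    exact congrArg Subtype.val (Equiv.Perm.ext_iff.1 h2 ⟨x, hx⟩)
  · exact hfix g x hx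

/-- The orbit of the word ball of radius `n`. -/
def ballOrbit {G : Type*} [Group G] {X : Type*} [MulAction G X] (S : Set G) (n : ℕ) (x : X) :
    Set X :=
  {y | ∃ l : List G, l.length ≤ n ∧ (∀ s ∈ l, s ∈ S ∨ s⁻¹ ∈ S) ∧ l.prod • x = y}

variable {X : Type*} [MulAction G X]

omit [Group.IsFinitelyPresented G] in
theorem ballOrbit_mono (S : Set G) {m n : ℕ} (h : m ≤ n) (x : X) :
    ballOrbit S m x ⊆ ballOrbit S n x :=
  fun _ ⟨l, h1, h2, h3⟩ => ⟨l, h1.trans h, h2, h3⟩

omit [Group.IsFinitelyPresented G] in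
theorem ballOrbit_finite (S : Finset G) (n : ℕ) (x : X) :
    (ballOrbit (S : Set G) n x).Finite := by
  classical
  let T : Finset G := S ∪ S.image (·⁻¹)
  refine ((List.finite_length_le T n).image fun l => (l.map Subtype.val).prod • x).subset ?_
  rintro y ⟨l, h1, h2, rfl⟩
  refine ⟨l.pmap Subtype.mk (fun s hs => ?_), by simpa using h1, by simp [List.map_pmap]⟩
  rcases h2 s hs with h | h
  · exact Finset.mem_union_left _ h
  · exact Finset.mem_union_right _ (Finset.mem_image.2 ⟨_, h, inv_inv _⟩)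

omit [Group.IsFinitelyPresented G] in
theorem exists_radius {S : Finset G} (hS : Subgroup.closure (S : Set G) = ⊤) (E : Finset G) :
    ∃ D, ∀ g ∈ E, ∃ l : List G, l.length ≤ D ∧ (∀ s ∈ l, s ∈ S ∨ s⁻¹ ∈ S) ∧ l.prod = g := by
  have h : ∀ g : G, ∃ l : List G, (∀ s ∈ l, s ∈ S ∨ s⁻¹ ∈ S) ∧ l.prod = g := fun g => by
    have hg : g ∈ Subgroup.closure (S : Set G) := hS ▸ Subgroup.mem_top g
    induction hg using Subgroup.closure_induction with
    | mem s hs => exact ⟨[s], by simp [Finset.mem_coe.1 hs], by simp⟩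
    | one => exact ⟨[], by simp, rfl⟩
    | mul a b _ _ ha hb =>
      obtain ⟨u, hu, rfl⟩ := ha
      obtain ⟨v, hv, rfl⟩ := hb
      exact ⟨u ++ v, fun s hs => (List.mem_append.1 hs).elim (hu s) (hv s), List.prod_append⟩
    | inv a _ ha =>
      obtain ⟨u, hu, rfl⟩ := ha
      refine ⟨(u.map fun s => s⁻¹).reverse, fun s hs => ?_, by rw [List.prod_inv_reverse]⟩
      simp only [List.mem_reverse, List.mem_map] at hs
      obtain ⟨t, ht, rfl⟩ := hs
      rcases hu t ht with h | h
      · exact Or.inr (by simpa using h)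
      · exact Or.inl h
  choose l hl hlp using h
  exact ⟨E.sup fun g => (l g).length, fun g hg =>
    ⟨l g, Finset.le_sup (f := fun g => (l g).length) hg, hl g, hlp g⟩⟩

omit [Group.IsFinitelyPresented G] in
/-- Linear growth along a sequence gives small boundaries in the orbit. -/
theorem boundedCuts_of_linear (S : Finset G) (hS : Subgroup.closure (S : Set G) = ⊤) (x : X)
    (C : ℕ) (hC : ∀ N : ℕ, ∃ n, N ≤ n ∧ (ballOrbit (S : Set G) n x).ncard ≤ C * n) :
    BoundedCuts G (MulAction.orbit G x) := by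
  classical
  intro E
  obtain ⟨D, hD⟩ := exists_radius hS E
  refine ⟨8 * C * (D + 1), fun A => ?_⟩
  set b := fun m => (ballOrbit (S : Set G) m x).ncard with hb
  obtain ⟨R, hR⟩ : ∃ R, ∀ a ∈ A, (a : X) ∈ ballOrbit (S : Set G) R x := by
    have : ∀ a : MulAction.orbit G x, ∃ R, (a : X) ∈ ballOrbit (S : Set G) R x := by
      rintro ⟨y, g, rfl⟩
      obtain ⟨D', hD'⟩ := exists_radius hS {g}
      obtain ⟨l, h1, h2, h3⟩ := hD' g (by simp)
      exact ⟨D', l, h1, h2, by rw [h3]⟩
    choose R hR using this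
    exact ⟨A.sup R, fun a ha => ballOrbit_mono _ (Finset.le_sup ha) x (hR a)⟩
  set w := 2 * D + 1 with hw
  -- there is a window of width `2 * D + 1` above `R` with few points
  obtain ⟨n, hn, hnC⟩ := hC (4 * (R + 2 * w) + 1)
  obtain ⟨q, r, hnq, hrw⟩ : ∃ q r, n = R + q * w + r ∧ r < w := by
    refine ⟨(n - R) / w, (n - R) % w, ?_, Nat.mod_lt _ (by omega)⟩
    have := Nat.div_add_mod (n - R) w
    rw [Nat.mul_comm] at this
    omega
  have hwin : ∃ t, t < q ∧ b (R + t * w + w) ≤ b (R + t * w) + 8 * C * (D + 1) := by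
    by_contra hcon
    push Not at hcon
    have key : ∀ t, t ≤ q → t * (8 * C * (D + 1) + 1) ≤ b (R + t * w) := by
      intro t
      induction t with
      | zero => intro; simp
      | succ t ih =>
        intro ht
        have h1 := ih (by omega)
        have h2 := hcon t (by omega)
        have e : b (R + (t + 1) * w) = b (R + t * w + w) :=
          congrArg b (by rw [Nat.succ_mul]; omega)
        rw [e, Nat.succ_mul]
        omega
    have h1 := key q le_rfl
    have h2 : b (R + q * w) ≤ C * n :=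
      (Set.ncard_le_ncard (ballOrbit_mono _ (by omega) x) (ballOrbit_finite S n x)).trans hnC
    have hq : n ≤ 2 * (q * w) := by omega
    have hw2 : w ≤ 2 * (D + 1) := by omega
    have h3 : C * n ≤ q * (4 * C * (D + 1)) :=
      calc C * n ≤ C * (2 * (q * w)) := Nat.mul_le_mul_left _ hq
        _ ≤ C * (2 * (q * (2 * (D + 1)))) :=
            Nat.mul_le_mul_left _ (Nat.mul_le_mul_left _ (Nat.mul_le_mul_left _ hw2))
        _ = q * (4 * C * (D + 1)) := by ring
    have hq0 : 0 < q := by
      rcases Nat.eq_zero_or_pos q with rfl | h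
      · omega
      · exact h
    nlinarith
  obtain ⟨t, -, ht⟩ := hwin
  set lo := R + t * w with hlo
  have hsub := ballOrbit_mono (S : Set G) (Nat.le_add_right lo w) x
  have hfin := ballOrbit_finite S (lo + w) x
  refine ⟨((ballOrbit_finite S (lo + D) x).preimage
      Subtype.val_injective.injOn).toFinset,
    (((hfin.diff (t := ballOrbit (S : Set G) lo x))).preimage
      Subtype.val_injective.injOn).toFinset, ?_, ?_, ?_⟩
  · intro a ha
    simp only [Set.Finite.mem_toFinset, Set.mem_preimage]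
    exact ballOrbit_mono _ (by omega) x (hR a ha)
  · rw [← Set.ncard_eq_toFinset_card _ _]
    refine le_trans (Set.ncard_le_ncard_of_injOn
      (t := ballOrbit (S : Set G) (lo + w) x \ ballOrbit (S : Set G) lo x) Subtype.val
      (fun y hy => hy) Subtype.val_injective.injOn (hfin.diff)) ?_
    rw [Set.ncard_sdiff hsub (ballOrbit_finite S lo x)]
    have : b (lo + w) ≤ b lo + 8 * C * (D + 1) := ht
    simp only [hb] at this
    omega
  · rintro ⟨y, hy⟩ g hg hne
    simp only [Set.Finite.mem_toFinset, Set.mem_preimage, MulAction.orbit.coe_smul] at hne ⊢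
    obtain ⟨l, hl1, hl2, hl3⟩ := hD g hg
    have hinv : ∀ s ∈ (l.map fun s => s⁻¹).reverse, s ∈ (S : Set G) ∨ s⁻¹ ∈ (S : Set G) := by
      intro s hs
      simp only [List.mem_reverse, List.mem_map] at hs
      obtain ⟨u, hu, rfl⟩ := hs
      rcases hl2 u hu with h | h
      · exact Or.inr (by simpa using h)
      · exact Or.inl h
    have hstep : ∀ m, y ∈ ballOrbit (S : Set G) m x → g • y ∈ ballOrbit (S : Set G) (m + D) x := by
      rintro m ⟨u, h1, h2, rfl⟩
      exact ⟨l ++ u, by simp; omega, fun s hs => (List.mem_append.1 hs).elim (hl2 s) (h2 s),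
        by rw [List.prod_append, hl3, mul_smul]⟩
    have hback : ∀ m, g • y ∈ ballOrbit (S : Set G) m x → y ∈ ballOrbit (S : Set G) (m + D) x := by
      rintro m ⟨u, h1, h2, h3⟩
      exact ⟨(l.map fun s => s⁻¹).reverse ++ u, by simp; omega,
        fun s hs => (List.mem_append.1 hs).elim (hinv s) (h2 s),
        by rw [List.prod_append, ← List.prod_inv_reverse, hl3, mul_smul, h3, inv_smul_smul]⟩
    refine ⟨?_, fun h => hne (iff_of_true (ballOrbit_mono _ (by omega) x h)
      (hstep _ h))⟩
    by_cases hin : y ∈ ballOrbit (S : Set G) (lo + D) x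
    · exact ballOrbit_mono _ (by omega) x hin
    · have hgy : g • y ∈ ballOrbit (S : Set G) (lo + D) x := by
        by_contra h; exact hne (iff_of_false hin h)
      exact ballOrbit_mono _ (by omega) x (hback _ hgy)

/-- No action has a Schreier graph of linear growth. -/
theorem fixed_of_linear (hG : ∀ (H : Type) [Group H] [Finite H] (f : G →* H), f = 1)
    (S : Finset G) (hS : Subgroup.closure (S : Set G) = ⊤) (x : X)
    (C : ℕ) (hC : ∀ N : ℕ, ∃ n, N ≤ n ∧ (ballOrbit (S : Set G) n x).ncard ≤ C * n) :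
    ∀ g : G, g • x = x := fun g =>
  congrArg Subtype.val
    (trivial_of_boundedCuts hG (boundedCuts_of_linear S hS x C hC) g ⟨x, MulAction.mem_orbit_self x⟩)

omit X in
/-- No nontrivial action by powers of one permutation, finitely many powers for each element. -/
theorem trivial_of_fullGroup (hG : ∀ (H : Type) [Group H] [Finite H] (f : G →* H), f = 1)
    {Y : Type*} (τ : Equiv.Perm Y) (ρ : G →* Equiv.Perm Y)
    (hρ : ∀ g, ∃ K : Finset ℤ, ∀ y, ∃ k ∈ K, ρ g y = (τ ^ k) y) : ρ = 1 := by
  classical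
  ext g y₀
  let O : Set Y := Set.range fun k : ℤ => (τ ^ k) y₀
  have hO : ∀ (g : G) (y : Y), y ∈ O → ρ g y ∈ O := by
    rintro g _ ⟨k, rfl⟩
    obtain ⟨K, hK⟩ := hρ g
    obtain ⟨m, -, hm⟩ := hK ((τ ^ k) y₀)
    refine ⟨m + k, ?_⟩
    show (τ ^ (m + k)) y₀ = _
    rw [hm, zpow_add, Equiv.Perm.mul_apply]
  letI : MulAction G O :=
    { smul := fun g y => ⟨ρ g y.1, hO g y.1 y.2⟩
      one_smul := fun y => Subtype.ext (by show ρ 1 y.1 = y.1; simp)
      mul_smul := fun a b y => Subtype.ext (by show ρ (a * b) y.1 = ρ a (ρ b y.1); simp) }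
  have hX : BoundedCuts G O := by
    intro E
    choose K hK using hρ
    obtain ⟨D, hD⟩ : ∃ D : ℕ, ∀ g ∈ E, ∀ k ∈ K g, k.natAbs ≤ D :=
      ⟨E.sup fun g => (K g).sup Int.natAbs, fun g hg k hk =>
        (Finset.le_sup (f := Int.natAbs) hk).trans
          (Finset.le_sup (f := fun g => (K g).sup Int.natAbs) hg)⟩
    refine ⟨4 * D + 2, fun A => ?_⟩
    obtain ⟨m, hm⟩ : ∃ m : ℕ, ∀ a ∈ A, ∃ k : ℤ, k.natAbs ≤ m ∧ (τ ^ k) y₀ = a.1 := by
      have : ∀ a : O, ∃ k : ℤ, (τ ^ k) y₀ = a.1 := fun a => a.2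
      choose k hk using this
      exact ⟨A.sup fun a => (k a).natAbs, fun a ha =>
        ⟨k a, Finset.le_sup (f := fun a => (k a).natAbs) ha, hk a⟩⟩
    let pt : ℤ → O := fun k => ⟨(τ ^ k) y₀, k, rfl⟩
    refine ⟨(Finset.Icc (-(m + D : ℤ)) (m + D)).image pt,
      ((Finset.Icc (-(m + D + D : ℤ)) (-(m : ℤ))) ∪ Finset.Icc (m : ℤ) (m + D + D)).image pt,
      ?_, ?_, ?_⟩
    · intro a ha
      obtain ⟨k, hk, hka⟩ := hm a ha
      exact Finset.mem_image.2 ⟨k, Finset.mem_Icc.2 ⟨by omega, by omega⟩, Subtype.ext hka⟩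
    · refine Finset.card_image_le.trans ((Finset.card_union_le _ _).trans ?_)
      rw [Int.card_Icc, Int.card_Icc]
      omega
    · rintro ⟨y, hy⟩ g hg hne
      obtain ⟨k, hk, hky⟩ := hK g y
      have hkD := hD g hg k hk
      have hg' : g • (⟨y, hy⟩ : O) = ⟨(τ ^ k) y, hky ▸ hO g y hy⟩ := Subtype.ext hky
      rw [hg'] at hne
      by_cases hin : (⟨y, hy⟩ : O) ∈ (Finset.Icc (-(m + D : ℤ)) (m + D)).image pt
      · obtain ⟨i, hi, hiy⟩ := Finset.mem_image.1 hin
        rw [Finset.mem_Icc] at hi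
        have hy' : (τ ^ i) y₀ = y := congrArg Subtype.val hiy
        refine Finset.mem_image.2 ⟨i, ?_, hiy⟩
        by_contra hc
        simp only [Finset.mem_union, Finset.mem_Icc] at hc
        refine hne (iff_of_true hin (Finset.mem_image.2 ⟨k + i, Finset.mem_Icc.2 ⟨by omega, by omega⟩,
          Subtype.ext ?_⟩))
        show (τ ^ (k + i)) y₀ = (τ ^ k) y
        rw [zpow_add, Equiv.Perm.mul_apply, hy']
      · have hout : (⟨(τ ^ k) y, hky ▸ hO g y hy⟩ : O) ∈
            (Finset.Icc (-(m + D : ℤ)) (m + D)).image pt := by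
          by_contra h; exact hne (iff_of_false hin h)
        obtain ⟨i, hi, hiy⟩ := Finset.mem_image.1 hout
        rw [Finset.mem_Icc] at hi
        have hy' : (τ ^ i) y₀ = (τ ^ k) y := congrArg Subtype.val hiy
        have hy'' : pt (i - k) = (⟨y, hy⟩ : O) := Subtype.ext (by
          show (τ ^ (i - k)) y₀ = y
          rw [show i - k = -k + i by ring, zpow_add, Equiv.Perm.mul_apply, hy', zpow_neg]
          exact Equiv.symm_apply_apply _ _)
        refine Finset.mem_image.2 ⟨i - k, ?_, hy''⟩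
        by_contra hc
        simp only [Finset.mem_union, Finset.mem_Icc] at hc
        exact hin (Finset.mem_image.2 ⟨i - k, Finset.mem_Icc.2 ⟨by omega, by omega⟩, hy''⟩)
  have := congrArg Subtype.val (trivial_of_boundedCuts hG hX g ⟨y₀, 0, by simp⟩)
  exact this

omit [Group.IsFinitelyPresented G] X in
/-- An infinite simple group has no nontrivial finite quotient. -/
theorem no_finite_quotient_of_simple [IsSimpleGroup G] [Infinite G] :
    ∀ (H : Type) [Group H] [Finite H] (f : G →* H), f = 1 := fun H _ _ f => by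
  rcases IsSimpleGroup.eq_bot_or_eq_top_of_normal f.ker f.normal_ker with h | h
  · haveI : Finite G := Finite.of_injective f ((MonoidHom.ker_eq_bot_iff f).1 h)
    exact absurd (inferInstance : Infinite G) (not_infinite_iff_finite.2 inferInstance)
  · exact MonoidHom.ext fun g => MonoidHom.mem_ker.1 (h ▸ Subgroup.mem_top g)

end Vale.Agent.P196
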